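import Vale.Agent.P338.R2.H525.DBits

/-!
P338, stage 2: specification of a round over `F_p`.
-/

namespace Vale.Agent.P338.R2.H525.Fp

open H778 (val bits)

/-- The product modulo `p` of two words of width `W`, by three multiplications of words of width
`W` (`μ = 2 ^ W / p + 1`). -/
def mmN (W p μ x y : ℕ) : ℕ := p * (μ * (x * y % 2 ^ W) % 2 ^ W) / 2 ^ W

/-- triangular numbers -/
def tri (d : ℕ) : ℕ := d * (d - 1) / 2

/-- Dimensions: `K` blocks; the exchanged groups have size `X`; `G` middle indices, `E` lower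
indices; chunks of `L` bits; slots of `W` bits; the prime `p` and the generator `w`. -/
structure Dim where
  K : ℕ
  X : ℕ
  G : ℕ
  E : ℕ
  L : ℕ
  W : ℕ
  p : ℕ
  w : ℕ

namespace Dim

variable (D : Dim)

def Q : ℕ := D.p - 1
/-- row length, in units of `E` slots -/
def R : ℕ := 2 * D.X * D.G
/-- block length after packing, in units of `E` slots -/
def S1 : ℕ := D.X * (D.R + 1) + (D.X + D.Q) * D.R
/-- block length in the second product, in units of `E` slots -/
def S2 : ℕ := D.Q * D.R + (D.X + D.Q) * D.R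

/-- slot positions -/
def pos1 (k r g c e : ℕ) : ℕ := (k * D.S1 + r * D.R + g * (2 * D.X) + c) * D.E + e
def pos2 (k r g c e : ℕ) : ℕ := (k * D.S2 + r * D.R + g * (2 * D.X) + c) * D.E + e

/-- kernel -/
def ker (d : ℕ) : ℕ := D.w ^ tri d % D.p
/-- middle factor -/
def mid (q c : ℕ) : ℕ := D.w ^ (q * (c + (D.Q - 1) * (D.X + q))) % D.p
/-- final factor -/
def post (x y : ℕ) : ℕ := D.w ^ ((D.Q - 1) * (tri (D.X - x) + tri y)) % D.p

end Dim

/-- The data: words `V k x g y e` of length `L`. -/
def inputBits (D : Dim) (V : ℕ → ℕ → ℕ → ℕ → ℕ → List Bool) : List Bool :=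
  (List.range D.K).flatMap fun k => (List.range D.X).flatMap fun x =>
    (List.range D.G).flatMap fun g => (List.range D.X).flatMap fun y =>
      (List.range D.E).flatMap fun e => V k x g y e

def packBits (D : Dim) (V : ℕ → ℕ → ℕ → ℕ → ℕ → List Bool) : List Bool :=
  (List.range D.K).flatMap fun k =>
    ((List.range D.X).flatMap fun x =>
      ((List.range D.G).flatMap fun g =>
        ((List.range D.X).flatMap fun y =>
          (List.range D.E).flatMap fun e => zeros (D.W - D.L) ++ V k x g y e)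
          ++ zeros (D.X * D.E * D.W))
        ++ zeros (D.E * D.W))
      ++ zeros ((D.X + D.Q) * D.R * D.E * D.W)

/-- The kernel (the same one for both products). -/
def kerBits (D : Dim) : List Bool :=
  (List.range (D.X + D.Q)).flatMap fun d =>
    bits D.W (D.ker d) ++ zeros ((D.R * D.E - 1) * D.W)

def midBits (D : Dim) (z : List Bool) : List Bool :=
  (List.range D.K).flatMap fun k =>
    ((List.range D.Q).flatMap fun q => (List.range D.G).flatMap fun g =>
      (List.range (2 * D.X)).flatMap fun c => (List.range D.E).flatMap fun e =>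
        bits D.W (val (slotAt D.W z (1 + D.pos1 k (D.X + q) g c e)) * D.mid q c % D.p))
      ++ zeros ((D.X + D.Q) * D.R * D.E * D.W)

def postBits (D : Dim) (z : List Bool) : List Bool :=
  (List.range D.K).flatMap fun k => (List.range D.X).flatMap fun y =>
    (List.range D.G).flatMap fun g => (List.range D.X).flatMap fun x =>
      (List.range D.E).flatMap fun e =>
        (bits D.W (val (slotAt D.W z (1 + D.pos2 k (D.Q + y) g (y + x) e)) *
          D.post x y % D.p)).drop (D.W - D.L)

def roundBits (D : Dim) (n : ℕ) (V : ℕ → ℕ → ℕ → ℕ → ℕ → List Bool) : List Bool :=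
  postBits D (mulBits n (midBits D (mulBits n (packBits D V) (kerBits D))) (kerBits D))

/-- The conditions on the dimensions. -/
structure Dim.Ok (D : Dim) : Prop where
  hX : 1 ≤ D.X
  hG : 1 ≤ D.G
  hE : 1 ≤ D.E
  hL : D.L ≤ D.W
  /-- `2 ^ L ≤ p` -/
  hLp : 2 ^ D.L ≤ D.p
  /-- enough roots of unity -/
  hXp : 2 * D.X < D.p
  hp : D.p.Prime
  hw : orderOf (D.w : ZMod D.p) = D.p - 1
  /-- no overflow -/
  hW : D.p ^ 5 ≤ 2 ^ D.W

/-- The dimensions of a round: exchange of the index bits `h - s, …, h - 1`, chunks of `2 ^ h0`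
bits. -/
def dimOf (l h s h0 p w : ℕ) : Dim :=
  ⟨2 ^ (l - h), 2 ^ s, 2 ^ (l - s), 2 ^ (h - s - h0), 2 ^ h0, l, p, w⟩

/-- The words before the exchange. -/
def wordOf (l h s h0 : ℕ) (M : ℕ → ℕ → Bool) (k x g y e : ℕ) : List Bool :=
  (List.range (2 ^ h0)).map fun c =>
    M (g % 2 ^ (l - h) * 2 ^ h + x * 2 ^ (h - s) + g / 2 ^ (l - h))
      (k * 2 ^ h + y * 2 ^ (h - s) + e * 2 ^ h0 + c)

end Vale.Agent.P338.R2.H525.Fp
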