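import Vale.Agent.P338.R2.H525.Fp.Pack

/-!
P338, stage 2: the two products.
-/

namespace Vale.Agent.P338.R2.H525.Fp

open H778 (val bits slots conv spread)

/-- Generic row convolution. -/
theorem conv_rows (N1 N R : ℕ) (hR : 0 < R) (γ f : ℕ → ℕ) (φ : ℕ → ℕ) (B t m : ℕ) (ht : N1 ≤ t)
    (htN : t < N) (hm : m < R) (hf : ∀ r < N, f (B + r * R + m) = if r < N1 then φ r else 0)
    (hf0 : ∀ j, 0 < j → j ≤ N * R → j ≤ B → f (B - j) = 0) :
    conv f (spread R N γ) (B + t * R + m) =
      ∑ x ∈ Finset.range N1, φ x * γ (t - x) := by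
  rw [conv_spread' R _ hR]
  have h1 : ∀ d ∈ Finset.range N, (if d * R ≤ B + t * R + m then
      f (B + t * R + m - d * R) * γ d else 0) =
      if d ≤ t ∧ t - d < N1 then φ (t - d) * γ d else 0 := by
    intro d hd
    rw [Finset.mem_range] at hd
    by_cases hdq : d ≤ t
    · have h2 : d * R ≤ t * R := Nat.mul_le_mul_right _ hdq
      have h3 : (t - d) * R + d * R = t * R := by rw [← add_mul]; congr 1; omega
      have h4 : B + t * R + m - d * R = B + (t - d) * R + m := by omega
      rw [if_pos (by omega), h4, hf _ (by omega)]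
      by_cases h : t - d < N1
      · rw [if_pos h, if_pos ⟨hdq, h⟩]
      · rw [if_neg h, if_neg (fun h' => h h'.2), zero_mul]
    · rw [if_neg (fun h' : _ ∧ _ => hdq h'.1)]
      split_ifs with h
      · obtain ⟨u, hu⟩ : ∃ u, d = t + 1 + u := ⟨d - (t + 1), by omega⟩
        have h3 : d * R = t * R + (u + 1) * R := by rw [hu]; ring
        have h5 : (u + 1) * R = u * R + R := by ring
        have h4 : B + t * R + m - d * R = B - ((u + 1) * R - m) := by omega
        rw [h4, hf0 _ (by omega) _ (by omega), zero_mul]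
        calc (u + 1) * R - m ≤ (u + 1) * R := Nat.sub_le _ _
          _ ≤ N * R := Nat.mul_le_mul_right _ (by omega)
      · rfl
  rw [Finset.sum_congr rfl h1, ← Finset.sum_filter]
  refine Finset.sum_bij' (fun d _ => t - d) (fun x _ => t - x) ?_ ?_ ?_ ?_ ?_
  · intro d hd
    simp only [Finset.mem_filter, Finset.mem_range] at hd ⊢
    omega
  · intro x hx
    simp only [Finset.mem_filter, Finset.mem_range] at hx ⊢
    omega
  · intro d hd
    simp only [Finset.mem_filter, Finset.mem_range] at hd ⊢
    omega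
  · intro x hx
    simp only [Finset.mem_range] at hx ⊢
    omega
  · intro d hd
    simp only [Finset.mem_filter, Finset.mem_range] at hd ⊢
    have : t - (t - d) = d := by omega
    rw [this]

/-- Super-digits: the digit at the place `i * E + e` is `F i e`. -/
def flatE (E : ℕ) (F : ℕ → ℕ → ℕ) (j : ℕ) : ℕ := F (j / E) (j % E)

theorem flatE_mul (E : ℕ) (F : ℕ → ℕ → ℕ) (i e : ℕ) (he : e < E) :
    flatE E F (i * E + e) = F i e := by
  unfold flatE
  have h1 : (i * E + e) / E = i := by
    rw [Nat.mul_comm, Nat.mul_add_div (by omega), Nat.div_eq_of_lt he, add_zero]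
  have h2 : (i * E + e) % E = e := by
    rw [Nat.mul_comm, Nat.mul_add_mod, Nat.mod_eq_of_lt he]
  rw [h1, h2]

/-- The lower indices are not touched by the convolution. -/
theorem conv_flatE (E R N : ℕ) (hR : 0 < R) (F : ℕ → ℕ → ℕ) (γ : ℕ → ℕ) (i e : ℕ) (he : e < E) :
    conv (flatE E F) (spread (R * E) N γ) (i * E + e) =
      conv (fun j => F j e) (spread R N γ) i := by
  have hRE : 0 < R * E := Nat.mul_pos hR (by omega)
  rw [conv_spread' _ _ hRE, conv_spread' _ _ hR]
  apply Finset.sum_congr rfl
  intro d _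
  by_cases h : d * R ≤ i
  · have h1 : d * (R * E) ≤ i * E := by
      rw [← mul_assoc]
      exact Nat.mul_le_mul_right _ h
    have h2 : i * E + e - d * (R * E) = (i - d * R) * E + e := by
      rw [Nat.sub_mul, mul_assoc d R E]
      rw [← mul_assoc d R E] at h1 ⊢
      omega
    rw [if_pos (by omega), if_pos h, h2, flatE_mul _ _ _ _ he]
  · have h1 : (i + 1) * E ≤ d * R * E := Nat.mul_le_mul_right _ (by omega)
    have h2 : (i + 1) * E = i * E + E := by ring
    rw [if_neg (by rw [← mul_assoc]; omega), if_neg h]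

/-- The bits of a list of super-digits. -/
theorem flatMap_super (W E : ℕ) (hE : 0 < E) (xs : List (ℕ → ℕ)) :
    (xs.flatMap fun f => (List.range E).flatMap fun e => bits W (f e)) =
      slots W (xs.length * E) (flatE E fun i => xs.getD i 0) := by
  induction xs using List.reverseRecOn with
  | nil => simp
  | append_singleton xs x ih =>
    rw [List.flatMap_append, ih, List.length_append, List.length_singleton, Nat.add_mul, one_mul,
      H778.slots_add]
    congr 1
    · apply H778.slots_congr
      intro i hi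
      unfold flatE
      have : i / E < xs.length := Nat.div_lt_of_lt_mul (by rw [Nat.mul_comm]; exact hi)
      simp only
      rw [getD_append_left' _ _ _ _ this]
    · rw [List.flatMap_singleton, slots]
      apply List.flatMap_congr
      intro e he
      rw [List.mem_range] at he
      rw [flatE_mul _ _ _ _ he, getD_append_right' _ _ _ _ le_rfl]
      simp

theorem zeros_super (W E n : ℕ) :
    zeros (n * E * W) = (List.replicate n (0 : ℕ → ℕ)).flatMap
      (fun f => (List.range E).flatMap fun e => bits W (f e)) := by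
  have h0 : (List.range E).flatMap (fun e => bits W ((0 : ℕ → ℕ) e)) = zeros (E * W) := by
    rw [zeros_mul]
    induction E with
    | zero => rfl
    | succ m ih =>
      rw [List.range_succ, List.flatMap_append, ih, List.replicate_succ', List.flatMap_append]
      simp
  induction n with
  | zero => simp [zeros]
  | succ n ih =>
    rw [List.replicate_succ, List.flatMap_cons, ← ih, h0, zeros_append]
    congr 1
    ring

section

variable (D : Dim) (V : ℕ → ℕ → ℕ → ℕ → ℕ → List Bool)

/-- the values of the words, as super-digits -/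
def vv (k x g y : ℕ) : ℕ → ℕ := fun e => val (V k x g y e)

theorem packBits_eq (hE : 1 ≤ D.E) (hL : D.L ≤ D.W)
    (hV : ∀ k x g y e, (V k x g y e).length = D.L) :
    packBits D V = slots D.W (D.K * D.S1 * D.E) (flatE D.E (dig1 D (vv V))) := by
  have hb : ∀ k x g y e, zeros (D.W - D.L) ++ V k x g y e = bits D.W (vv V k x g y e) := by
    intro k x g y e
    have hlen : (zeros (D.W - D.L) ++ V k x g y e).length = D.W := by
      rw [List.length_append, length_zeros, hV]
      omega
    have := H778.bits_val (zeros (D.W - D.L) ++ V k x g y e)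
    rw [hlen] at this
    rw [← this, H778.val_append, val_zeros, zero_mul, zero_add]
    rfl
  have hmain : packBits D V = (packDigits D (vv V)).flatMap
      (fun f => (List.range D.E).flatMap fun e => bits D.W (f e)) := by
    unfold packBits packDigits blockDigits rowDigits
    simp only [List.flatMap_append, List.flatMap_assoc, List.flatMap_map, hb, zeros_super,
      List.flatMap_singleton]
    have h0 : zeros (D.E * D.W) = (List.range D.E).flatMap
        (fun e => bits D.W ((0 : ℕ → ℕ) e)) := by
      have := zeros_super D.W D.E 1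
      rw [one_mul] at this
      rw [this]
      simp
    rw [h0]
  rw [hmain, flatMap_super D.W D.E (by omega), length_packDigits]
  rfl

theorem kerBits_eq (hX : 1 ≤ D.X) (hG : 1 ≤ D.G) (hE : 1 ≤ D.E) :
    kerBits D = slots D.W ((D.X + D.Q) * (D.R * D.E))
      (spread (D.R * D.E) (D.X + D.Q) D.ker) := by
  have hR : 0 < D.R * D.E := Nat.mul_pos (R_pos D hX hG) (by omega)
  rw [H778.slots_mul, kerBits]
  apply List.flatMap_congr
  intro d hd
  rw [List.mem_range] at hd
  generalize D.R * D.E = R at hR ⊢
  obtain ⟨R', rfl⟩ : ∃ R', R = 1 + R' := ⟨R - 1, by omega⟩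
  rw [H778.slots_add]
  congr 1
  · rw [show (1 : ℕ) = 0 + 1 from rfl, H778.slots_succ]
    have := H778.spread_mul (1 + R') (D.X + D.Q) hR D.ker d hd
    simp only [H778.slots_zero, List.nil_append, add_zero]
    rw [show 0 + 1 + R' = 1 + R' by ring, this]
  · have : 1 + R' - 1 = R' := by omega
    rw [this, H778.slots_congr (g := fun _ => 0) (fun i hi => ?_)]
    · rw [zeros_mul, slots]
      clear this hR
      induction R' with
      | zero => rfl
      | succ m ih => rw [List.range_succ, List.flatMap_append, ← ih, List.replicate_succ',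
          List.flatMap_append]; simp
    · have h5 : (d * (1 + R') + (1 + i)) % (1 + R') = 1 + i := by
        rw [Nat.mul_comm, Nat.mul_add_mod, Nat.mod_eq_of_lt (by omega)]
      unfold spread
      rw [if_neg]
      rintro ⟨h2, _⟩
      rw [h5] at h2
      omega

/-- the first product, number level -/
def Z1 (v : ℕ → ℕ → ℕ) (q c : ℕ) : ℕ :=
  ∑ x ∈ Finset.range D.X, (if x ≤ c ∧ c < x + D.X then v x (c - x) else 0) * D.ker (D.X + q - x)

/-- after the middle pass -/
def Z2 (v : ℕ → ℕ → ℕ) (q c : ℕ) : ℕ := Z1 D v q c * D.mid q c % D.p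

/-- the second product -/
def Z3 (v : ℕ → ℕ → ℕ) (y c : ℕ) : ℕ :=
  ∑ q ∈ Finset.range D.Q, Z2 D v q c * D.ker (D.Q + y - q)

theorem conv1 (hX : 1 ≤ D.X) (hG : 1 ≤ D.G) (v : ℕ → ℕ → ℕ → ℕ → ℕ → ℕ) (k q g c e : ℕ)
    (hk : k < D.K) (hq : q < D.Q) (hg : g < D.G) (hc : c < 2 * D.X) (he : e < D.E) :
    conv (flatE D.E (dig1 D v)) (spread (D.R * D.E) (D.X + D.Q) D.ker)
      (D.pos1 k (D.X + q) g c e) = Z1 D (fun x y => v k x g y e) q c := by
  have hR := R_pos D hX hG
  have hm := pos_lt_R D g c hg hc
  rw [Dim.pos1, conv_flatE _ _ _ hR _ _ _ _ he]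
  have h := conv_rows D.X (D.X + D.Q) D.R hR D.ker (fun j => dig1 D v j e)
    (fun r => shear D (v k) r g c e) (k * D.S1) (D.X + q) (g * (2 * D.X) + c)
    (by omega) (by omega) hm ?_ ?_
  · rw [add_assoc (k * D.S1 + (D.X + q) * D.R), h, Z1]
    apply Finset.sum_congr rfl
    intro x hx
    rw [Finset.mem_range] at hx
    congr 1
    unfold shear
    by_cases hxc : x ≤ c ∧ c < x + D.X
    · rw [if_pos ⟨hx, hxc⟩, if_pos hxc]
    · rw [if_neg (fun h' => hxc h'.2), if_neg hxc]
      rfl
  · intro r hr
    have := dig1_shear D hX v k r g c hk hr hg hc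
    rw [add_assoc] at this
    rw [this]
    by_cases h : r < D.X
    · rw [if_pos h]
    · rw [if_neg h, shear, if_neg (fun h' => h h'.1)]
      rfl
  · intro j hj hj' hjk
    rw [dig1_before D v k j hk hj hj' hjk]
    rfl

theorem conv2 (hX : 1 ≤ D.X) (hG : 1 ≤ D.G) (z : ℕ → ℕ → ℕ → ℕ → ℕ → ℕ) (k y g c e : ℕ)
    (hk : k < D.K) (hy : y < D.X) (hg : g < D.G) (hc : c < 2 * D.X) (he : e < D.E) :
    conv (flatE D.E (dig2 D z)) (spread (D.R * D.E) (D.X + D.Q) D.ker)
      (D.pos2 k (D.Q + y) g c e) =
      ∑ q ∈ Finset.range D.Q, z k q g c e * D.ker (D.Q + y - q) := by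
  have hR := R_pos D hX hG
  have hm := pos_lt_R D g c hg hc
  rw [Dim.pos2, conv_flatE _ _ _ hR _ _ _ _ he]
  have h := conv_rows D.Q (D.X + D.Q) D.R hR D.ker (fun j => dig2 D z j e)
    (fun r => z k r g c e) (k * D.S2) (D.Q + y) (g * (2 * D.X) + c)
    (by omega) (by omega) hm ?_ ?_
  · rw [add_assoc (k * D.S2 + (D.Q + y) * D.R), h]
  · intro r hr
    have := dig2_row D z k r g c hk hr hg hc
    rw [add_assoc] at this
    rw [this]
    split_ifs <;> rfl
  · intro j hj hj' hjk
    rw [dig2_before D z k j hk hj hj' hjk]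
    rfl

end

end Vale.Agent.P338.R2.H525.Fp
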