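import Vale.Agent.P338.R2.H525.Fp.RoundD
import Vale.Agent.P338.R2.H101.FpNum

/-!
P338, stage 2: the number level is fine.
-/

namespace Vale.Agent.P338.R2.H525.Fp

theorem aa_num (D : Dim) (a : ℕ → ℕ → ℕ) (x c : ℕ) :
    (if x ≤ c ∧ c < x + D.X then a x (c - x) else 0) = H101.FpNum.aa D a x c := by
  unfold H101.FpNum.aa
  by_cases h : x ≤ c ∧ c < x + D.X
  · rw [if_pos h, if_pos (by omega)]
  · rw [if_neg h, if_neg (by omega)]

theorem Z1_num (D : Dim) (a : ℕ → ℕ → ℕ) (q c : ℕ) : Z1 D a q c = H101.FpNum.Z1 D a q c := by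
  unfold Z1 H101.FpNum.Z1
  simp only [aa_num]

theorem Z3_num (D : Dim) (a : ℕ → ℕ → ℕ) (y c : ℕ) : Z3 D a y c = H101.FpNum.Z3 D a y c := by
  unfold Z3 H101.FpNum.Z3 Z2 H101.FpNum.Z2
  simp only [Z1_num]

theorem numOk {D : Dim} (hD : D.Ok) : NumOk D :=
  ⟨fun a ha x y hx hy => by
    rw [Z3_num]
    exact H101.FpNum.round_num hD (ha x y) hx hy⟩

/-- **One round on the stored matrix.** -/
theorem round_dBits' (l h p w n : ℕ) (M : ℕ → ℕ → Bool) (hl32 : 32 ≤ l)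
    (h1 : hPar l + sPar l ≤ h) (hl : h ≤ l)
    (hp : p.Prime) (hp1 : 2 * 2 ^ sPar l < p) (hp2 : p ≤ 4 * 2 ^ sPar l)
    (hw : orderOf (w : ZMod p) = p - 1) (hn : 576 * 4 ^ l ≤ n) :
    roundBits (dimOf l h (sPar l) (hPar l) p w) n (wordOf l h (sPar l) (hPar l) M) =
      dBits l (h - sPar l) M :=
  round_dBits l h p w n M hl32 h1 hl hp hp1 hp2 hw hn
    (numOk (dimOf_ok l h p w hl32 hp hp1 hp2 hw))

end Vale.Agent.P338.R2.H525.Fp
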