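import Vale.Agent.P338.R2.H525.Fp.Close

/-!
P338, stage 2: the slots of the two products are small.
-/

namespace Vale.Agent.P338.R2.H525.Fp

open H778 (val bits slots)

theorem len_mulBits (n : ℕ) (x y : List Bool) : (mulBits n x y).length = 2 * n := by
  unfold mulBits
  exact H778.length_bits _ _

theorem val_V_lt' (D : Dim) {V : ℕ → ℕ → ℕ → ℕ → ℕ → List Bool}
    (hV : ∀ k x g y e, (V k x g y e).length = D.L) (k x g y e : ℕ) :
    val (V k x g y e) < 2 ^ D.L := by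
  have := H778.val_lt (V k x g y e)
  rwa [hV] at this

/-- The first product. -/
theorem slot1_small (D : Dim) (V : ℕ → ℕ → ℕ → ℕ → ℕ → List Bool) (hD : D.Ok)
    (hV : ∀ k x g y e, (V k x g y e).length = D.L) (n : ℕ)
    (hn1 : D.K * D.S1 * D.E * D.W ≤ n) (hn2 : (D.X + D.Q) * D.R * D.E * D.W ≤ n)
    (k q g c e : ℕ) (hk : k < D.K) (hq : q < D.Q) (hg : g < D.G) (hc : c < 2 * D.X)
    (he : e < D.E) :
    val (slotAt D.W (mulBits n (packBits D V) (kerBits D)) (1 + D.pos1 k (D.X + q) g c e))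
      < D.p ^ 3 := by
  rw [slot_prod1 D V hD hV n hn1 hn2 k q g c e hk hq hg hc he,
    H778.val_bits_of_lt (Z1_lt D V hD hV k q g c e hk hq hg hc he), Z1_num]
  exact H101.FpNum.Z1_lt hD (fun x y => val_V_lt' D hV k x g y e) q c

/-- The second product. -/
theorem slot2_small (D : Dim) (V : ℕ → ℕ → ℕ → ℕ → ℕ → List Bool) (hD : D.Ok)
    (hV : ∀ k x g y e, (V k x g y e).length = D.L) (n : ℕ)
    (hn1 : D.K * D.S1 * D.E * D.W ≤ n) (hn2 : (D.X + D.Q) * D.R * D.E * D.W ≤ n)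
    (hn3 : D.K * D.S2 * D.E * D.W ≤ n)
    (k y g c e : ℕ) (hk : k < D.K) (hy : y < D.X) (hg : g < D.G) (hc : c < 2 * D.X)
    (he : e < D.E) :
    val (slotAt D.W (mulBits n (midBits D (mulBits n (packBits D V) (kerBits D))) (kerBits D))
      (1 + D.pos2 k (D.Q + y) g c e)) < D.p ^ 3 := by
  rw [midBits_eq D V hD hV n hn1 hn2, slot_prod2 D V hD n hn2 hn3 k y g c e hk hy hg hc he,
    H778.val_bits_of_lt (Z3_lt D V hD hV k y g c e hk hy hg hc he), Z3_num]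
  exact H101.FpNum.Z3_lt hD y c

theorem cube_ok {D : Dim} (hD : D.Ok) {z : ℕ} (hz : z < D.p ^ 3) : z * D.p * D.p ≤ 2 ^ D.W := by
  calc z * D.p * D.p ≤ D.p ^ 3 * D.p * D.p := by gcongr
    _ = D.p ^ 5 := by ring
    _ ≤ _ := hD.hW

/-- Sizes for the stored matrix. -/
theorem sizes_l (l h p w : ℕ) (hl32 : 32 ≤ l) (h1 : hPar l + sPar l ≤ h) (hl : h ≤ l)
    (hp1 : 1 ≤ p) (hp2 : p ≤ 4 * 2 ^ sPar l) (n : ℕ) (hn : 576 * 4 ^ l ≤ n) :
    (dimOf l h (sPar l) (hPar l) p w).K * (dimOf l h (sPar l) (hPar l) p w).S1 *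
      (dimOf l h (sPar l) (hPar l) p w).E * (dimOf l h (sPar l) (hPar l) p w).W ≤ n ∧
    ((dimOf l h (sPar l) (hPar l) p w).X + (dimOf l h (sPar l) (hPar l) p w).Q) *
      (dimOf l h (sPar l) (hPar l) p w).R * (dimOf l h (sPar l) (hPar l) p w).E *
      (dimOf l h (sPar l) (hPar l) p w).W ≤ n ∧
    (dimOf l h (sPar l) (hPar l) p w).K * (dimOf l h (sPar l) (hPar l) p w).S2 *
      (dimOf l h (sPar l) (hPar l) p w).E * (dimOf l h (sPar l) (hPar l) p w).W ≤ n := by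
  obtain ⟨g1, g2, g3, g4, g5, g6, g7⟩ := par l hl32
  obtain ⟨s1, s2, s3⟩ := sizes (dimOf l h (sPar l) (hPar l) p w) Nat.one_le_two_pow
    Nat.one_le_two_pow Nat.one_le_two_pow hp2 hp1 g3.le
  rw [dimOf_size l h _ _ p w (by omega) hl (by omega)] at s1 s2 s3
  exact ⟨s1.trans hn, s2.trans hn, s3.trans hn⟩

theorem W_le (l n : ℕ) (hn : 576 * 4 ^ l ≤ n) : l ≤ n := by
  have h1 : l < 4 ^ l := Nat.lt_pow_self (by norm_num)
  omega

end Vale.Agent.P338.R2.H525.Fp
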