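import Vale.Agent.P338.R2.H525.Fp.KerPass

/-!
P338, stage 2: the cost of the kernel pass.
-/

namespace Vale.Agent.P338.R2.H525.Fp

open H898
open H898.XP

theorem kerP_wf : kerP.WF := by decide

theorem kerP_uses : kerP.uses = {.X, .Q, .G, .C, .E} := by decide

theorem kerP_marks : kerP.marks = ∅ := by decide

/-- The cost of the kernel pass. -/
theorem bd_kerP {m : RK → ℕ} {D : Dim} (hm : KFits m D) (hD : D.Ok) (c : WI VK → ℕ) (cm cw : ℕ)
    (hcw : 2 ≤ cw) (h1 : ∀ i j k, c (.mul i j k) ≤ cm) (h2 : ∀ i, c (.one i) ≤ cw)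
    (h3 : ∀ i j, c (.cp i j) ≤ cw) (h4 : ∀ i, c (.wr i) ≤ cw) :
    bd m c kerP ≤ 2 * (D.X + D.Q) * cm + 14 * ((D.X + D.Q) * D.R * D.E * cw) := by
  have hX := hD.hX
  have hG := hD.hG
  have hE := hD.hE
  have hXp := hD.hXp
  have hQ : 1 ≤ D.Q := by unfold Dim.Q; omega
  have a1 := h1 .k .k .t
  have a2 := h1 .t .t .w
  have a3 := h3 .z .k
  have a4 := h3 .z .o
  have a5 := h4 .z
  have a6 := h2 .k
  have a7 := h2 .t
  have e0 : m .E * (c (.wr .z) + c (.cp .z .o) + 2) + 2 ≤ 4 * (D.E * cw) := by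
    rw [hm.mE]
    have : D.E * (c (.wr .z) + c (.cp .z .o) + 2) ≤ D.E * (3 * cw) :=
      Nat.mul_le_mul_left _ (by omega)
    have h5 : 1 * cw ≤ D.E * cw := Nat.mul_le_mul_right _ hE
    have h6 : D.E * (3 * cw) = 3 * (D.E * cw) := by ring
    omega
  set u := D.E * cw with hu
  have hu2 : 2 ≤ u := by
    rw [hu]
    calc 2 ≤ 1 * cw := by omega
      _ ≤ D.E * cw := Nat.mul_le_mul_right _ hE
  have e1 : m .C * (m .E * (c (.wr .z) + c (.cp .z .o) + 2) + 2 + 2) + 2 ≤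
      6 * (2 * D.X * u) := by
    rw [hm.mC]
    have : 2 * D.X * (m .E * (c (.wr .z) + c (.cp .z .o) + 2) + 2 + 2) ≤ 2 * D.X * (5 * u) :=
      Nat.mul_le_mul_left _ (by omega)
    have h5 : 1 * u ≤ 2 * D.X * u := Nat.mul_le_mul_right _ (by omega)
    have h6 : 2 * D.X * (5 * u) = 5 * (2 * D.X * u) := by ring
    omega
  set u2 := 2 * D.X * u with hu'
  have hu3 : 2 ≤ u2 := by
    rw [hu']
    calc 2 ≤ 1 * u := by omega
      _ ≤ 2 * D.X * u := Nat.mul_le_mul_right _ (by omega)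
  have e2 : m .G * (m .C * (m .E * (c (.wr .z) + c (.cp .z .o) + 2) + 2 + 2) + 2 + 2) + 2 ≤
      8 * (D.G * u2) := by
    rw [hm.mG]
    have : D.G * (m .C * (m .E * (c (.wr .z) + c (.cp .z .o) + 2) + 2 + 2) + 2 + 2) ≤
        D.G * (7 * u2) := Nat.mul_le_mul_left _ (by omega)
    have h5 : 1 * u2 ≤ D.G * u2 := Nat.mul_le_mul_right _ hG
    have h6 : D.G * (7 * u2) = 7 * (D.G * u2) := by ring
    omega
  have hRE : D.G * u2 = D.R * D.E * cw := by
    rw [hu', hu]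
    unfold Dim.R
    ring
  rw [hRE] at e2
  set u4 := D.R * D.E * cw with hu4
  have hu5 : cw ≤ u4 := by
    rw [← hRE]
    calc cw = 1 * (1 * (1 * cw)) := by ring
      _ ≤ D.G * (2 * D.X * (D.E * cw)) :=
        Nat.mul_le_mul hG (Nat.mul_le_mul (by omega) (Nat.mul_le_mul_right _ hE))
  have hrow : bd m c kerRow + 2 ≤ 2 * cm + 10 * u4 := by
    simp only [kerRow, bd]
    omega
  have hfin : bd m c kerP = c (.one .k) + (c (.one .t) + (m .X * (bd m c kerRow + 2) + 2 +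
      (m .Q * (bd m c kerRow + 2) + 2))) := rfl
  rw [hfin, hm.mX, hm.mQ]
  have b1 : D.X * (bd m c kerRow + 2) ≤ D.X * (2 * cm + 10 * u4) := Nat.mul_le_mul_left _ hrow
  have b2 : D.Q * (bd m c kerRow + 2) ≤ D.Q * (2 * cm + 10 * u4) := Nat.mul_le_mul_left _ hrow
  have b3 : D.X * (2 * cm + 10 * u4) + D.Q * (2 * cm + 10 * u4) =
      2 * (D.X + D.Q) * cm + 10 * ((D.X + D.Q) * u4) := by ring
  have b4 : 1 * u4 ≤ (D.X + D.Q) * u4 := Nat.mul_le_mul_right _ (by omega)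
  have b5 : (D.X + D.Q) * D.R * D.E * cw = (D.X + D.Q) * u4 := by rw [hu4]; ring
  rw [b5]
  omega

end Vale.Agent.P338.R2.H525.Fp
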