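import Vale.Agent.P338.R2.H898.XWord
import Vale.Agent.P338.R2.H101.FpNum

/-!
P338, stage 2: the program that writes the kernel.
-/

namespace Vale.Agent.P338.R2.H525.Fp

open H778 (val bits)
open H898
open H898.XP

section adv

variable {F α J σ : Type} [DecidableEq F] {m : F → ℕ} {w : List α} {e : α} {S : XSem α J σ}

/-- A program that advances `c` steps along a sequence of outputs and extra states, provided that
the rulers of `Z` are at rest. -/
def Adv (m : F → ℕ) (w : List α) (e : α) (S : XSem α J σ) (a : XP F α J) (Z : Finset F) (p : ℕ)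
    (o : ℕ → List α) (x : ℕ → σ) (c : ℕ) : Prop :=
  ∀ v : F → ℕ, (∀ r ∈ Z, v r = 0) → ∀ n,
    eval m w e S a ⟨v, p, o n, x n⟩ = ⟨v, p, o (n + c), x (n + c)⟩

theorem Adv.loop {r : F} {a : XP F α J} {Z : Finset F} {p : ℕ} {o : ℕ → List α} {x : ℕ → σ}
    {c : ℕ} (hr : r ∉ Z) (h : Adv m w e S a Z p o x c) :
    Adv m w e S (XP.loop r a) (insert r Z) p o x (m r * c) := by
  intro v hv n
  have h0 : v r = 0 := hv r (Finset.mem_insert_self _ _)
  have := XP.eval_loop_v (m := m) (w := w) (e := e) (S := S) (r := r) (a := a) v h0 (fun _ => p)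
    (fun i => o (n + i * c)) (fun i => x (n + i * c)) (by
      intro i _
      rw [h]
      · rw [show n + i * c + c = n + (i + 1) * c by ring]
      · intro r' hr'
        have hne : r' ≠ r := fun h => hr (h ▸ hr')
        rw [Function.update_of_ne hne]
        exact hv r' (Finset.mem_insert_of_mem hr'))
  simpa using this

end adv

/-- The rulers. -/
inductive RK
  | X | Q | G | C | E
  deriving DecidableEq

/-- The word registers: `z` and `o` are `0` at the beginning. -/
inductive VK
  | z | k | t | w | o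
  deriving DecidableEq

/-- One row. -/
def kerRow : XP RK Bool (WI VK) :=
  seq (ext (.cp .z .k)) (seq (ext (.mul .k .k .t)) (seq (ext (.mul .t .t .w))
    (loop .G (loop .C (loop .E (seq (ext (.wr .z)) (ext (.cp .z .o))))))))

/-- The kernel. -/
def kerP : XP RK Bool (WI VK) :=
  seq (ext (.one .k)) (seq (ext (.one .t)) (seq (loop .X kerRow) (loop .Q kerRow)))

/-- The rulers are those of `D`. -/
structure KFits (m : RK → ℕ) (D : Dim) : Prop where
  mX : m .X = D.X
  mQ : m .Q = D.Q
  mG : m .G = D.G
  mC : m .C = 2 * D.X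
  mE : m .E = D.E

/-- The values of the registers after `d` rows. -/
def kerReg (D : Dim) (u : VK → ℕ) (d : ℕ) : VK → ℕ
  | .z => 0
  | .k => D.ker d
  | .t => D.w ^ d % D.p
  | .w => u .w
  | .o => 0

variable {D : Dim} {m : RK → ℕ} {w : List Bool} {L : ℕ}

theorem flatMap_first (W n a : ℕ) :
    ((List.range (n + 1)).flatMap fun j => bits W (if j = 0 then a else 0)) =
      bits W a ++ zeros (n * W) := by
  rw [List.range_succ_eq_map, List.flatMap_cons, if_pos rfl, List.flatMap_map]
  congr 1
  have h1 : ∀ j : ℕ, bits W (if j + 1 = 0 then a else 0) = List.replicate W false := by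
    intro j
    rw [if_neg (by omega)]
    exact H778.bits_zero W
  simp only [Nat.succ_eq_add_one, h1]
  rw [flatMap_replicate]
  rfl

theorem eval_kerRow (hm : KFits m D) (hD : D.Ok) (u : VK → ℕ) (hu : u .w = D.w % D.p)
    (v : RK → ℕ) (hG : v .G = 0) (hC : v .C = 0) (hE : v .E = 0) (q : ℕ) (o : List Bool) (d : ℕ) :
    eval m w false (wsem D.W L D.p (2 ^ D.W / D.p + 1)) kerRow ⟨v, q, o, kerReg D u d⟩ =
      ⟨v, q, o ++ (bits D.W (D.ker d) ++ zeros ((D.R * D.E - 1) * D.W)),
        kerReg D u (d + 1)⟩ := by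
  have hp := hD.hp.pos
  set a := D.ker d with ha
  have hslot : Adv m w false (wsem D.W L D.p (2 ^ D.W / D.p + 1))
      (seq (ext (.wr .z)) (ext (.cp .z .o))) ∅ q
      (fun n => o ++ (List.range n).flatMap fun j => bits D.W (if j = 0 then a else 0))
      (fun n => Function.update (kerReg D u (d + 1)) .z (if n = 0 then a else 0)) 1 := by
    intro v _ n
    rw [XP.eval_seq, XP.eval_wr, XP.eval_cp]
    simp only [Function.update_self, Function.update_idem, List.range_succ, List.flatMap_append,
      List.flatMap_cons, List.flatMap_nil, List.append_nil, List.append_assoc]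
    congr 1
  have hl := ((hslot.loop (r := .E) (by simp)).loop (r := .C) (by decide)).loop (r := .G)
    (by decide)
  have hl2 := hl v (by simp [hG, hC, hE]) 0
  have hcount : 0 + m .G * (m .C * (m .E * 1)) = (D.R * D.E - 1) + 1 := by
    have h1 : 0 < D.R * D.E := by
      unfold Dim.R
      have := hD.hX
      have := hD.hG
      have := hD.hE
      positivity
    rw [hm.mG, hm.mC, hm.mE]
    unfold Dim.R at h1 ⊢
    have h2 : 0 + D.G * (2 * D.X * (D.E * 1)) = 2 * D.X * D.G * D.E := by ring
    omega
  rw [hcount] at hl2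
  simp only [flatMap_first] at hl2
  simp only [Nat.add_eq_zero_iff, one_ne_zero, and_false, if_false] at hl2
  rw [kerRow, XP.eval_seq, XP.eval_cp, XP.eval_seq, XP.eval_mul, XP.eval_seq, XP.eval_mul]
  dsimp only
  have hx : Function.update (Function.update (Function.update (kerReg D u d) VK.z
      (kerReg D u d VK.k)) VK.k
      (mmN D.W D.p (2 ^ D.W / D.p + 1) (Function.update (kerReg D u d) VK.z
        (kerReg D u d VK.k) VK.k)
        (Function.update (kerReg D u d) VK.z (kerReg D u d VK.k) VK.t))) VK.t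
      (mmN D.W D.p (2 ^ D.W / D.p + 1)
        (Function.update (Function.update (kerReg D u d) VK.z (kerReg D u d VK.k)) VK.k
          (mmN D.W D.p (2 ^ D.W / D.p + 1) (Function.update (kerReg D u d) VK.z
            (kerReg D u d VK.k) VK.k)
            (Function.update (kerReg D u d) VK.z (kerReg D u d VK.k) VK.t)) VK.t)
        (Function.update (Function.update (kerReg D u d) VK.z (kerReg D u d VK.k)) VK.k
          (mmN D.W D.p (2 ^ D.W / D.p + 1) (Function.update (kerReg D u d) VK.z
            (kerReg D u d VK.k) VK.k)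
            (Function.update (kerReg D u d) VK.z (kerReg D u d VK.k) VK.t)) VK.w)) =
      Function.update (kerReg D u (d + 1)) VK.z a := by
    funext i
    have e1 : mmN D.W D.p (2 ^ D.W / D.p + 1) (D.ker d) (D.w ^ d % D.p) = D.ker (d + 1) := by
      rw [H101.FpNum.mmN_eq hp (H101.FpNum.small_mul hD (H101.FpNum.ker_lt hD d)
        (Nat.mod_lt _ hp)), H101.FpNum.ker_succ]
    have e2 : mmN D.W D.p (2 ^ D.W / D.p + 1) (D.w ^ d % D.p) (u .w) = D.w ^ (d + 1) % D.p := by
      rw [hu, H101.FpNum.mmN_eq hp (H101.FpNum.small_mul hD (Nat.mod_lt _ hp)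
        (Nat.mod_lt _ hp)), H101.FpNum.pow_succ_mod]
    cases i
    · simp [kerReg, ha]
    · simpa [kerReg] using e1
    · simpa [kerReg] using e2
    · simp [kerReg]
    · simp [kerReg]
  rw [hx]
  simp only [if_true, List.range_zero, List.flatMap_nil, List.append_nil] at hl2
  rw [hl2]
  congr 1
  funext i
  cases i <;> simp [kerReg]

theorem eval_kerRows (hm : KFits m D) (hD : D.Ok) (u : VK → ℕ) (hu : u .w = D.w % D.p)
    (v : RK → ℕ) (hv : ∀ r, v r = 0) (r : RK) (hr : r = .X ∨ r = .Q) (q : ℕ)
    (o : List Bool) (d : ℕ) :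
    eval m w false (wsem D.W L D.p (2 ^ D.W / D.p + 1)) (loop r kerRow) ⟨v, q, o, kerReg D u d⟩ =
      ⟨v, q, o ++ (List.range (m r)).flatMap (fun i => bits D.W (D.ker (d + i)) ++
        zeros ((D.R * D.E - 1) * D.W)), kerReg D u (d + m r)⟩ := by
  have := XP.eval_loop_v (m := m) (w := w) (e := false)
    (S := wsem D.W L D.p (2 ^ D.W / D.p + 1)) (r := r) (a := kerRow) v (hv r) (fun _ => q)
    (fun i => o ++ (List.range i).flatMap (fun i => bits D.W (D.ker (d + i)) ++
        zeros ((D.R * D.E - 1) * D.W))) (fun i => kerReg D u (d + i)) (by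
      intro i _
      rw [eval_kerRow hm hD u hu]
      · simp only [List.range_succ, List.flatMap_append, List.flatMap_cons, List.flatMap_nil,
          List.append_nil, List.append_assoc]
        congr 1
      · rcases hr with h | h <;> subst h <;> simp [hv]
      · rcases hr with h | h <;> subst h <;> simp [hv]
      · rcases hr with h | h <;> subst h <;> simp [hv])
  simpa using this

/-- **The kernel pass.** -/
theorem eval_kerP (hm : KFits m D) (hD : D.Ok) (u : VK → ℕ) (hw : u .w = D.w % D.p)
    (hz : u .z = 0) (ho : u .o = 0) (q : ℕ) (o : List Bool) :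
    eval m w false (wsem D.W L D.p (2 ^ D.W / D.p + 1)) kerP ⟨fun _ => 0, q, o, u⟩ =
      ⟨fun _ => 0, q, o ++ kerBits D, kerReg D u (D.X + D.Q)⟩ := by
  have h1 : Function.update (Function.update u VK.k 1) VK.t 1 = kerReg D u 0 := by
    funext i
    cases i
    · simp [kerReg, hz]
    · simp [kerReg, H101.FpNum.ker_zero hD]
    · simp only [Function.update_self, kerReg, pow_zero]
      exact (Nat.mod_eq_of_lt hD.hp.one_lt).symm
    · simp [kerReg]
    · simp [kerReg, ho]
  rw [kerP, XP.eval_seq, XP.eval_one, XP.eval_seq, XP.eval_one, XP.eval_seq]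
  dsimp only
  rw [h1, eval_kerRows hm hD u hw _ (fun _ => rfl) .X (Or.inl rfl),
    eval_kerRows hm hD u hw _ (fun _ => rfl) .Q (Or.inr rfl), hm.mX, hm.mQ, Nat.zero_add]
  congr 1
  rw [List.append_assoc]
  congr 1
  unfold kerBits
  rw [List.range_add, List.flatMap_append, List.flatMap_map]
  simp

end Vale.Agent.P338.R2.H525.Fp
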