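import Vale.Agent.P338.R2.H525.Fp.KerCost
import Vale.Agent.P338.R2.H898.XPass

/-!
P338, stage 2: the `Run` statement of the kernel pass.
-/

namespace Vale.Agent.P338.R2.H525.Fp

open H898
open H968 (CallEnv)
open H968.CallEnv (mem0)
open Function (update)

instance : Fintype RK := ⟨{.X, .Q, .G, .C, .E}, by
  intro x
  cases x <;> simp⟩

instance : Fintype VK := ⟨{.z, .k, .t, .w, .o}, by
  intro x
  cases x <;> simp⟩

/-- The scratch registers: all but `w`. -/
def scrK : List VK := [.z, .k, .t, .o]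

theorem scrK_nodup : scrK.Nodup := by decide

theorem not_mem_scrK {i : VK} (h : i ∉ scrK) : i = .w := by
  revert h
  cases i <;> decide

variable {M F α : Type} [DecidableEq F] [DecidableEq α] {d : α} {A : MTM}

theorem Ok_p_lt (D : Dim) (h : D.Ok) : D.p < 2 ^ D.W := H101.FpNum.p_lt h

theorem Ok_mu_lt (D : Dim) (h : D.Ok) : 2 ^ D.W / D.p + 1 < 2 ^ D.W := by
  have h1 := Ok_p_lt D h
  have h2 := h.hXp
  have h3 := h.hX
  have h4 : 2 ^ D.W / D.p ≤ 2 ^ D.W / 3 := Nat.div_le_div_left (by omega) (by norm_num)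
  omega

theorem Ok_W_pos (D : Dim) (h : D.Ok) : 1 ≤ D.W := by
  by_contra h1
  have h2 : D.W = 0 := by omega
  have h3 := h.hW
  rw [h2, pow_zero] at h3
  have h4 : D.p ^ 1 ≤ D.p ^ 5 := Nat.pow_le_pow_right h.hp.pos (by norm_num)
  have h5 := h.hp.two_le
  rw [pow_one] at h4
  omega

theorem KFits.pos {m : RK → ℕ} {D : Dim} (hm : KFits m D) (h : D.Ok) (r : RK) : 0 < m r := by
  have h1 := h.hX
  have h2 := h.hG
  have h3 := h.hE
  have h4 := h.hXp
  cases r with
  | X => rw [hm.mX]; omega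
  | Q => rw [hm.mQ]; unfold Dim.Q; omega
  | G => rw [hm.mG]; omega
  | C => rw [hm.mC]; omega
  | E => rw [hm.mE]; omega

/-- **The kernel pass.** The input file is not used. -/
theorem run_ker (hA : Multiplies A) (E : CallEnv A M (WF RK VK A.Tape) α d)
    (hfile : ∀ c, E.file c = .call c) (one mk : α) (hmk : one ≠ mk) {mem : M}
    (hmem : E.put (mem0 A) mem = mem) (D : Dim) (h : D.Ok) (hwp : D.w < D.p)
    (m : RK → ℕ) (hm : KFits m D) (u : VK → ℕ) (hu : u .w = D.w) (w : List Bool)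
    {ι : WF RK VK A.Tape → F} (hι : Function.Injective ι) (z : F → Zip α)
    (hz : WInit E one scrK kerP D.W D.L D.p (2 ^ D.W / D.p + 1) m u w fun f => z (ι f)) :
    Prog.Run d ((wpass E one mk scrK kerP).map (Lens.idL M) ι) ⟨mem, z⟩
      (60 * ((D.X + D.Q) * D.R * D.E * wcost A D.W))
      ⟨mem, update z (ι .out) ⟨[], (kerBits D).map E.bit⟩⟩ := by
  have hev := eval_kerP (w := w) (L := D.L) hm h (fun i => if i ∈ scrK then 0 else u i)
    (by rw [Nat.mod_eq_of_lt hwp, ← hu]; rfl) rfl rfl 0 []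
  rw [List.nil_append] at hev
  have h1 := run_wpassMap (d := d) hA E hfile one mk hmk scrK scrK_nodup kerP kerP_wf
    hmem h.hL (Ok_W_pos D h) (Ok_p_lt D h) (Ok_mu_lt D h) m (fun r _ => hm.pos h r) u _
    (by
      intro i hi
      rw [not_mem_scrK hi]
      show (if VK.w ∈ scrK then 0 else u .w) = u .w
      rfl) w hι z hz hev
  refine h1.mono ?_
  have hT := le_wcost A D.W (Ok_W_pos D h)
  have hW := Ok_W_pos D h
  have hb := bd_kerP hm h (fun _ => wcost A D.W) (wcost A D.W) (wcost A D.W) (by omega)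
    (fun _ _ _ => le_rfl) (fun _ => le_rfl) (fun _ _ => le_rfl) (fun _ => le_rfl)
  have h2 : 1 ≤ D.R * D.E := by
    unfold Dim.R
    have := h.hX
    have := h.hG
    have := h.hE
    have : 0 < 2 * D.X * D.G * D.E := by positivity
    omega
  have h3 : (D.X + D.Q) * wcost A D.W ≤ (D.X + D.Q) * D.R * D.E * wcost A D.W := by
    apply Nat.mul_le_mul_right
    calc D.X + D.Q = (D.X + D.Q) * 1 := by ring
      _ ≤ (D.X + D.Q) * (D.R * D.E) := Nat.mul_le_mul_left _ h2
      _ = _ := by ring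
  have h4 : wcost A D.W ≤ (D.X + D.Q) * wcost A D.W :=
    Nat.le_mul_of_pos_left _ (by have := h.hX; omega)
  have h5 : scrK.length = 4 := rfl
  have h6 : 2 * (D.X + D.Q) * wcost A D.W = 2 * ((D.X + D.Q) * wcost A D.W) := by ring
  rw [h6] at hb
  rw [h5]
  omega

end Vale.Agent.P338.R2.H525.Fp
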