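import Vale.Agent.P338.R2.H525.Fp.Spec
import Vale.Agent.P338.R2.H525.Prod

/-!
P338, stage 2: the digits of the packed data.
-/

namespace Vale.Agent.P338.R2.H525.Fp

open H778 (val bits slots conv spread)

variable {β : Type} [Zero β]

/-- digits of one data row -/
def rowDigits (D : Dim) (v : ℕ → ℕ → β) : List β :=
  ((List.range D.G).flatMap fun g => ((List.range D.X).map fun y => v g y) ++
    List.replicate D.X 0) ++ [0]

def blockDigits (D : Dim) (v : ℕ → ℕ → ℕ → β) : List β :=
  ((List.range D.X).flatMap fun x => rowDigits D (v x)) ++ List.replicate ((D.X + D.Q) * D.R) 0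

def packDigits (D : Dim) (v : ℕ → ℕ → ℕ → ℕ → β) : List β :=
  (List.range D.K).flatMap fun k => blockDigits D (v k)

theorem length_group (D : Dim) (v : ℕ → β) :
    (((List.range D.X).map fun y => v y) ++ List.replicate D.X 0).length = 2 * D.X := by
  simp; omega

theorem length_rowDigits (D : Dim) (v : ℕ → ℕ → β) : (rowDigits D v).length = D.R + 1 := by
  rw [rowDigits, List.length_append, length_flatMap_const _ (2 * D.X) _
    (fun g _ => length_group D (v g)), List.length_singleton, Dim.R]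
  ring

theorem length_blockDigits (D : Dim) (v : ℕ → ℕ → ℕ → β) : (blockDigits D v).length = D.S1 := by
  rw [blockDigits, List.length_append, length_flatMap_const _ (D.R + 1) _
    (fun x _ => length_rowDigits D (v x)), List.length_replicate, Dim.S1]

theorem length_packDigits (D : Dim) (v : ℕ → ℕ → ℕ → ℕ → β) :
    (packDigits D v).length = D.K * D.S1 :=
  length_flatMap_const _ _ _ (fun k _ => length_blockDigits D (v k))

def dig1 (D : Dim) (v : ℕ → ℕ → ℕ → ℕ → β) (i : ℕ) : β := (packDigits D v).getD i 0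

theorem dig1_of_le (D : Dim) (v : ℕ → ℕ → ℕ → ℕ → β) (i : ℕ) (h : D.K * D.S1 ≤ i) :
    dig1 D v i = 0 := getD_of_le _ _ _ (by rw [length_packDigits]; exact h)

theorem dig1_block (D : Dim) (v : ℕ → ℕ → ℕ → ℕ → β) (k j : ℕ) (hk : k < D.K) (hj : j < D.S1) :
    dig1 D v (k * D.S1 + j) = (blockDigits D (v k)).getD j 0 :=
  getD_flatMap_range _ _ _ _ (fun k _ => length_blockDigits D (v k)) _ _ hk hj

theorem blockDigits_pad (D : Dim) (v : ℕ → ℕ → ℕ → β) (j : ℕ) (hj : D.X * (D.R + 1) ≤ j) :
    (blockDigits D v).getD j 0 = 0 := by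
  have h1 := length_flatMap_const D.X (D.R + 1) _ (fun x _ => length_rowDigits D (v x))
  rw [blockDigits, getD_append_right' _ _ _ _ (by rw [h1]; exact hj), getD_replicate']

theorem blockDigits_row (D : Dim) (v : ℕ → ℕ → ℕ → β) (x o : ℕ) (hx : x < D.X) (ho : o < D.R + 1) :
    (blockDigits D v).getD (x * (D.R + 1) + o) 0 = (rowDigits D (v x)).getD o 0 := by
  have h1 := length_flatMap_const D.X (D.R + 1) _ (fun x _ => length_rowDigits D (v x))
  rw [blockDigits, getD_append_left', getD_flatMap_range _ _ _ _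
    (fun x _ => length_rowDigits D (v x)) _ _ hx ho]
  rw [h1]
  calc x * (D.R + 1) + o < x * (D.R + 1) + (D.R + 1) := by omega
    _ = (x + 1) * (D.R + 1) := by ring
    _ ≤ D.X * (D.R + 1) := Nat.mul_le_mul_right _ hx

theorem rowDigits_group (D : Dim) (v : ℕ → ℕ → β) (g y : ℕ) (hg : g < D.G) (hy : y < 2 * D.X) :
    (rowDigits D v).getD (g * (2 * D.X) + y) 0 = if y < D.X then v g y else 0 := by
  have h1 := length_flatMap_const D.G (2 * D.X) _ (fun g _ => length_group D (v g))
  rw [rowDigits, getD_append_left', getD_flatMap_range _ _ _ _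
    (fun g _ => length_group D (v g)) _ _ hg hy]
  · by_cases h : y < D.X
    · rw [if_pos h, getD_append_left' _ _ _ _ (by simpa using h), getD_map_range _ _ _ _ h]
    · rw [if_neg h, getD_append_right' _ _ _ _ (by simpa using h), getD_replicate']
  · rw [h1]
    calc g * (2 * D.X) + y < g * (2 * D.X) + (2 * D.X) := by omega
      _ = (g + 1) * (2 * D.X) := by ring
      _ ≤ D.G * (2 * D.X) := Nat.mul_le_mul_right _ hg

theorem rowDigits_last (D : Dim) (v : ℕ → ℕ → β) (o : ℕ) (h : D.R ≤ o) :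
    (rowDigits D v).getD o 0 = 0 := by
  have h1 := length_flatMap_const D.G (2 * D.X) _ (fun g _ => length_group D (v g))
  have h2 : D.R = D.G * (2 * D.X) := by unfold Dim.R; ring
  rw [rowDigits, getD_append_right' _ _ _ _ (by rw [h1, ← h2]; exact h), h1, ← h2]
  rcases Nat.eq_zero_or_pos (o - D.R) with h3 | h3
  · rw [h3]; rfl
  · exact getD_of_le _ _ _ (by simp only [List.length_singleton]; omega)

/-- The sheared value. -/
def shear (D : Dim) (v : ℕ → ℕ → ℕ → β) (r g c : ℕ) : β :=
  if r < D.X ∧ r ≤ c ∧ c < r + D.X then v r g (c - r) else 0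

theorem blockDigits_shear (D : Dim) (hX : 1 ≤ D.X) (v : ℕ → ℕ → ℕ → β) (r g c : ℕ)
    (hg : g < D.G) (hc : c < 2 * D.X) :
    (blockDigits D v).getD (r * D.R + g * (2 * D.X) + c) 0 = shear D v r g c := by
  have hR : D.R = D.G * (2 * D.X) := by unfold Dim.R; ring
  have hgR : g * (2 * D.X) + 2 * D.X ≤ D.R := by
    rw [hR]
    calc g * (2 * D.X) + 2 * D.X = (g + 1) * (2 * D.X) := by ring
      _ ≤ D.G * (2 * D.X) := Nat.mul_le_mul_right _ hg
  unfold shear
  rcases Nat.lt_or_ge D.X r with hrP | hrP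
  · -- beyond
    rw [if_neg (by omega)]
    apply blockDigits_pad
    have : (D.X + 1) * D.R ≤ r * D.R := Nat.mul_le_mul_right _ hrP
    have e1 : (D.X + 1) * D.R = D.X * D.R + D.R := by ring
    have e2 : D.X * (D.R + 1) = D.X * D.R + D.X := by ring
    omega
  rcases Nat.lt_or_ge c r with hcr | hcr
  · rw [if_neg (by omega)]
    rcases Nat.eq_zero_or_pos g with hg0 | hg0
    · -- previous row
      subst hg0
      obtain ⟨r', rfl⟩ : ∃ r', r = r' + 1 := ⟨r - 1, by omega⟩
      have e1 : (r' + 1) * D.R + 0 * (2 * D.X) + c = r' * (D.R + 1) + (D.R - (r' - c)) := by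
        have : (r' + 1) * D.R = r' * D.R + D.R := by ring
        have : r' * (D.R + 1) = r' * D.R + r' := by ring
        omega
      rw [e1, blockDigits_row _ _ _ _ (by omega) (by omega)]
      rcases Nat.eq_zero_or_pos (r' - c) with h0 | h0
      · rw [h0]; exact rowDigits_last _ _ _ (by omega)
      · obtain ⟨G', hG'⟩ : ∃ G', D.G = G' + 1 := ⟨D.G - 1, by omega⟩
        have e2 : D.R - (r' - c) = G' * (2 * D.X) + (2 * D.X - (r' - c)) := by
          rw [hR, hG']
          have : (G' + 1) * (2 * D.X) = G' * (2 * D.X) + 2 * D.X := by ring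
          omega
        rw [e2, rowDigits_group _ _ _ _ (by omega) (by omega), if_neg (by omega)]
    · obtain ⟨g', rfl⟩ : ∃ g', g = g' + 1 := ⟨g - 1, by omega⟩
      have e1 : r * D.R + (g' + 1) * (2 * D.X) + c =
          r * (D.R + 1) + (g' * (2 * D.X) + (2 * D.X - (r - c))) := by
        have : r * (D.R + 1) = r * D.R + r := by ring
        have : (g' + 1) * (2 * D.X) = g' * (2 * D.X) + 2 * D.X := by ring
        omega
      rw [e1]
      rcases Nat.lt_or_ge r D.X with hr | hr
      · rw [blockDigits_row _ _ _ _ hr (by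
          have : (g' + 1) * (2 * D.X) = g' * (2 * D.X) + 2 * D.X := by ring
          omega), rowDigits_group _ _ _ _ (by omega) (by omega), if_neg (by omega)]
      · have : r = D.X := by omega
        subst this
        exact blockDigits_pad _ _ _ (Nat.le_add_right _ _)
  · rcases Nat.lt_or_ge r D.X with hr | hr
    · have e1 : r * D.R + g * (2 * D.X) + c = r * (D.R + 1) + (g * (2 * D.X) + (c - r)) := by
        have : r * (D.R + 1) = r * D.R + r := by ring
        omega
      rw [e1, blockDigits_row _ _ _ _ hr (by omega), rowDigits_group _ _ _ _ hg (by omega)]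
      by_cases h : c < r + D.X
      · rw [if_pos (by omega), if_pos (by omega)]
      · rw [if_neg (by omega), if_neg (by omega)]
    · rw [if_neg (by omega)]
      apply blockDigits_pad
      have : r = D.X := by omega
      subst this
      have : D.X * (D.R + 1) = D.X * D.R + D.X := by ring
      omega

theorem pos_lt_R (D : Dim) (g c : ℕ) (hg : g < D.G) (hc : c < 2 * D.X) :
    g * (2 * D.X) + c < D.R := by
  have hR : D.R = D.G * (2 * D.X) := by unfold Dim.R; ring
  rw [hR]
  calc g * (2 * D.X) + c < g * (2 * D.X) + 2 * D.X := by omega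
    _ = (g + 1) * (2 * D.X) := by ring
    _ ≤ D.G * (2 * D.X) := Nat.mul_le_mul_right _ hg

theorem R_pos (D : Dim) (hX : 1 ≤ D.X) (hG : 1 ≤ D.G) : 0 < D.R := by
  unfold Dim.R; positivity

/-- the digits at sheared positions -/
theorem dig1_shear (D : Dim) (hX : 1 ≤ D.X) (v : ℕ → ℕ → ℕ → ℕ → β) (k r g c : ℕ) (hk : k < D.K)
    (hr : r < D.X + D.Q) (hg : g < D.G) (hc : c < 2 * D.X) :
    dig1 D v (k * D.S1 + r * D.R + g * (2 * D.X) + c) = shear D (v k) r g c := by
  have hgR := pos_lt_R D g c hg hc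
  have h1 : r * D.R + D.R ≤ (D.X + D.Q) * D.R := by
    calc r * D.R + D.R = (r + 1) * D.R := by ring
      _ ≤ (D.X + D.Q) * D.R := Nat.mul_le_mul_right _ hr
  have e : k * D.S1 + r * D.R + g * (2 * D.X) + c = k * D.S1 + (r * D.R + g * (2 * D.X) + c) := by
    ring
  rw [e, dig1_block D v k _ hk, blockDigits_shear D hX (v k) r g c hg hc]
  unfold Dim.S1
  omega

/-- the digits before a block -/
theorem dig1_before (D : Dim) (v : ℕ → ℕ → ℕ → ℕ → β) (k j : ℕ) (hk : k < D.K) (hj : 0 < j)
    (hj' : j ≤ (D.X + D.Q) * D.R) (hjk : j ≤ k * D.S1) :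
    dig1 D v (k * D.S1 - j) = 0 := by
  obtain ⟨k', rfl⟩ : ∃ k', k = k' + 1 := by
    refine ⟨k - 1, ?_⟩
    rcases Nat.eq_zero_or_pos k with h | h
    · subst h; simp at hjk; omega
    · omega
  have hS : D.S1 = D.X * (D.R + 1) + (D.X + D.Q) * D.R := rfl
  have e : (k' + 1) * D.S1 - j = k' * D.S1 + (D.S1 - j) := by
    have : (k' + 1) * D.S1 = k' * D.S1 + D.S1 := by ring
    omega
  rw [e, dig1_block D v k' _ (by omega) (by omega)]
  apply blockDigits_pad
  omega

/-- the second digit list -/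
def block2 (D : Dim) (z : ℕ → ℕ → ℕ → β) : List β :=
  ((List.range D.Q).flatMap fun q => (List.range D.G).flatMap fun g =>
    (List.range (2 * D.X)).map fun c => z q g c) ++
    List.replicate ((D.X + D.Q) * D.R) 0

def digits2 (D : Dim) (z : ℕ → ℕ → ℕ → ℕ → β) : List β :=
  (List.range D.K).flatMap fun k => block2 D (z k)

theorem length_row2 (D : Dim) (z : ℕ → ℕ → β) :
    ((List.range D.G).flatMap fun g => (List.range (2 * D.X)).map fun c => z g c).length =
      D.R := by
  rw [length_flatMap_const _ (2 * D.X) _ (fun g _ => by simp)]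
  unfold Dim.R; ring

theorem length_block2 (D : Dim) (z : ℕ → ℕ → ℕ → β) : (block2 D z).length = D.S2 := by
  rw [block2, List.length_append, length_flatMap_const _ D.R _ (fun q _ => length_row2 D (z q)),
    List.length_replicate]
  rfl

theorem length_digits2 (D : Dim) (z : ℕ → ℕ → ℕ → ℕ → β) :
    (digits2 D z).length = D.K * D.S2 :=
  length_flatMap_const _ _ _ (fun k _ => length_block2 D (z k))

def dig2 (D : Dim) (z : ℕ → ℕ → ℕ → ℕ → β) (i : ℕ) : β := (digits2 D z).getD i 0

theorem dig2_of_le (D : Dim) (z : ℕ → ℕ → ℕ → ℕ → β) (i : ℕ) (h : D.K * D.S2 ≤ i) :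
    dig2 D z i = 0 := getD_of_le _ _ _ (by rw [length_digits2]; exact h)

theorem dig2_block (D : Dim) (z : ℕ → ℕ → ℕ → ℕ → β) (k j : ℕ) (hk : k < D.K) (hj : j < D.S2) :
    dig2 D z (k * D.S2 + j) = (block2 D (z k)).getD j 0 :=
  getD_flatMap_range _ _ _ _ (fun k _ => length_block2 D (z k)) _ _ hk hj

theorem block2_pad (D : Dim) (z : ℕ → ℕ → ℕ → β) (j : ℕ) (hj : D.Q * D.R ≤ j) :
    (block2 D z).getD j 0 = 0 := by
  have h1 := length_flatMap_const D.Q D.R _ (fun q _ => length_row2 D (z q))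
  rw [block2, getD_append_right' _ _ _ _ (by rw [h1]; exact hj), getD_replicate']

theorem block2_row (D : Dim) (z : ℕ → ℕ → ℕ → β) (r g c : ℕ) (hg : g < D.G) (hc : c < 2 * D.X) :
    (block2 D z).getD (r * D.R + g * (2 * D.X) + c) 0 = if r < D.Q then z r g c else 0 := by
  have hm := pos_lt_R D g c hg hc
  have h1 := length_flatMap_const D.Q D.R _ (fun q _ => length_row2 D (z q))
  by_cases hr : r < D.Q
  · rw [if_pos hr, block2, add_assoc, getD_append_left', getD_flatMap_range _ _ _ _
      (fun q _ => length_row2 D (z q)) _ _ hr hm, getD_flatMap_range _ _ _ _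
      (fun g _ => by simp) _ _ hg hc, getD_map_range _ _ _ _ hc]
    rw [h1]
    calc r * D.R + (g * (2 * D.X) + c) < r * D.R + D.R := by omega
      _ = (r + 1) * D.R := by ring
      _ ≤ D.Q * D.R := Nat.mul_le_mul_right _ hr
  · rw [if_neg hr]
    apply block2_pad
    have : D.Q * D.R ≤ r * D.R := Nat.mul_le_mul_right _ (by omega)
    omega

theorem dig2_row (D : Dim) (z : ℕ → ℕ → ℕ → ℕ → β) (k r g c : ℕ) (hk : k < D.K)
    (hr : r < D.X + D.Q) (hg : g < D.G) (hc : c < 2 * D.X) :
    dig2 D z (k * D.S2 + r * D.R + g * (2 * D.X) + c) = if r < D.Q then z k r g c else 0 := by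
  have hm := pos_lt_R D g c hg hc
  have h1 : r * D.R + D.R ≤ (D.X + D.Q) * D.R := by
    calc r * D.R + D.R = (r + 1) * D.R := by ring
      _ ≤ (D.X + D.Q) * D.R := Nat.mul_le_mul_right _ hr
  have e : k * D.S2 + r * D.R + g * (2 * D.X) + c = k * D.S2 + (r * D.R + g * (2 * D.X) + c) := by
    ring
  rw [e, dig2_block D z k _ hk, block2_row D (z k) r g c hg hc]
  unfold Dim.S2
  omega

theorem dig2_before (D : Dim) (z : ℕ → ℕ → ℕ → ℕ → β) (k j : ℕ) (hk : k < D.K) (hj : 0 < j)
    (hj' : j ≤ (D.X + D.Q) * D.R) (hjk : j ≤ k * D.S2) :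
    dig2 D z (k * D.S2 - j) = 0 := by
  obtain ⟨k', rfl⟩ : ∃ k', k = k' + 1 := by
    refine ⟨k - 1, ?_⟩
    rcases Nat.eq_zero_or_pos k with h | h
    · subst h; simp at hjk; omega
    · omega
  have hS : D.S2 = D.Q * D.R + (D.X + D.Q) * D.R := rfl
  have e : (k' + 1) * D.S2 - j = k' * D.S2 + (D.S2 - j) := by
    have : (k' + 1) * D.S2 = k' * D.S2 + D.S2 := by ring
    omega
  rw [e, dig2_block D z k' _ (by omega) (by omega)]
  apply block2_pad
  omega

end Vale.Agent.P338.R2.H525.Fp
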