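import Vale.Agent.P338.R2.H525.Fp.Prod

/-!
P338, stage 2: one round exchanges two index groups (list level), given the number level.
-/

namespace Vale.Agent.P338.R2.H525.Fp

open H778 (val bits slots conv spread)

/-- The number-level facts used by a round. -/
structure NumOk (D : Dim) : Prop where
  core : ∀ (a : ℕ → ℕ → ℕ), (∀ x y, a x y < 2 ^ D.L) → ∀ x y, x < D.X → y < D.X →
    Z3 D a y (y + x) * D.post x y % D.p = a x y

theorem getD_lt_fun (l : List (ℕ → ℕ)) (B : ℕ) (hB : 0 < B) (h : ∀ f ∈ l, ∀ e, f e < B)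
    (i e : ℕ) : l.getD i 0 e < B := by
  rcases Nat.lt_or_ge i l.length with h1 | h1
  · rw [List.getD_eq_getElem _ _ h1]
    exact h _ (List.getElem_mem h1) e
  · rw [getD_of_le _ _ _ h1]
    exact hB

section

variable (D : Dim) (V : ℕ → ℕ → ℕ → ℕ → ℕ → List Bool) (hD : D.Ok)
  (hV : ∀ k x g y e, (V k x g y e).length = D.L)

include hD in
theorem p_pos : 0 < D.p := hD.hp.pos

include hD in
theorem p_two : 2 ≤ D.p := hD.hp.two_le

include hD in
theorem Q_pos : 0 < D.Q := by
  have := hD.hXp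
  have := hD.hX
  unfold Dim.Q
  omega

include hD in
theorem ker_lt (d : ℕ) : D.ker d < D.p := Nat.mod_lt _ (p_pos D hD)

include hD in
theorem N_le : D.X + D.Q ≤ 2 * D.p := by
  have := hD.hXp
  unfold Dim.Q
  omega

include hD in
theorem four_le : 4 ≤ D.p ∨ D.p = 3 := by
  have h1 := hD.hXp
  have h2 := hD.hX
  omega

include hD in
/-- products of sums do not overflow -/
theorem bound_conv (F : ℕ → ℕ) (hF : ∀ i, F i < D.p) (R c : ℕ) (hR : 0 < R) :
    conv F (spread R (D.X + D.Q) D.ker) c < 2 ^ D.W := by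
  have h1 := N_le D hD
  have h2 := Q_pos D hD
  have hp := p_two D hD
  refine lt_of_lt_of_le (H778.conv_spread_lt R (D.X + D.Q) (by omega) D.ker F D.p D.p hF
    (fun d _ => ker_lt D hD d) c hR) ?_
  calc (D.X + D.Q) * (D.p * D.p) ≤ 2 * D.p * (D.p * D.p) := Nat.mul_le_mul_right _ h1
    _ = 2 * (D.p * D.p * D.p) := by ring
    _ ≤ D.p * D.p * (D.p * D.p * D.p) := Nat.mul_le_mul_right _
        (hp.trans (Nat.le_mul_of_pos_left _ (by omega)))
    _ = D.p ^ 5 := by ring
    _ ≤ 2 ^ D.W := hD.hW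

include hD hV in
theorem val_V_lt (k x g y e : ℕ) : val (V k x g y e) < D.p := by
  have := H778.val_lt (V k x g y e)
  rw [hV] at this
  exact lt_of_lt_of_le this hD.hLp

include hD in
theorem p_lt_W : D.p ≤ 2 ^ D.W := by
  refine le_trans ?_ hD.hW
  exact Nat.le_self_pow (by norm_num) _

include hD hV in
theorem dig1_lt (i e : ℕ) : dig1 D (vv V) i e < D.p := by
  have hp := p_pos D hD
  apply getD_lt_fun _ _ hp
  intro f hf e
  have h1 : ∀ k x g y e, vv V k x g y e < D.p := fun k x g y e => val_V_lt D V hD hV k x g y e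
  simp only [packDigits, blockDigits, rowDigits, List.mem_flatMap, List.mem_append, List.mem_map,
    List.mem_replicate, List.mem_singleton, List.mem_range] at hf
  rcases hf with ⟨k, _, (⟨x', _, (⟨g, _, (⟨y, _, h⟩ | ⟨_, h⟩)⟩ | h)⟩ | ⟨_, h⟩)⟩
  · rw [← h]; exact h1 _ _ _ _ _
  · rw [h]; exact hp
  · rw [h]; exact hp
  · rw [h]; exact hp

/-- the twisted values, as super-digits -/
def zz (k q g c : ℕ) : ℕ → ℕ := fun e => Z2 D (fun x y => val (V k x g y e)) q c

include hD in
theorem Z2_lt (v : ℕ → ℕ → ℕ) (q c : ℕ) : Z2 D v q c < D.p := Nat.mod_lt _ (p_pos D hD)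

include hD in
theorem dig2_lt (i e : ℕ) : dig2 D (zz D V) i e < D.p := by
  have hp := p_pos D hD
  apply getD_lt_fun _ _ hp
  intro f hf e
  simp only [digits2, block2, List.mem_flatMap, List.mem_append, List.mem_map,
    List.mem_replicate, List.mem_range] at hf
  rcases hf with ⟨k, _, (⟨q, _, ⟨g, _, ⟨c, _, h⟩⟩⟩ | ⟨_, h⟩)⟩
  · rw [← h]
    exact Z2_lt D hD _ q c
  · rw [h]; exact hp

theorem pos1_lt (k r g c e : ℕ) (hk : k < D.K) (hr : r < D.X + D.Q) (hg : g < D.G)
    (hc : c < 2 * D.X) (he : e < D.E) : D.pos1 k r g c e < D.K * D.S1 * D.E := by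
  have hm := pos_lt_R D g c hg hc
  have h1 : r * D.R + D.R ≤ (D.X + D.Q) * D.R := by
    calc r * D.R + D.R = (r + 1) * D.R := by ring
      _ ≤ (D.X + D.Q) * D.R := Nat.mul_le_mul_right _ hr
  have h2 : k * D.S1 + D.S1 ≤ D.K * D.S1 := by
    calc k * D.S1 + D.S1 = (k + 1) * D.S1 := by ring
      _ ≤ D.K * D.S1 := Nat.mul_le_mul_right _ hk
  have h3 : D.S1 = D.X * (D.R + 1) + (D.X + D.Q) * D.R := rfl
  unfold Dim.pos1
  have h4 : k * D.S1 + r * D.R + g * (2 * D.X) + c + 1 ≤ D.K * D.S1 := by omega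
  calc (k * D.S1 + r * D.R + g * (2 * D.X) + c) * D.E + e
      < (k * D.S1 + r * D.R + g * (2 * D.X) + c) * D.E + D.E := by omega
    _ = (k * D.S1 + r * D.R + g * (2 * D.X) + c + 1) * D.E := by ring
    _ ≤ D.K * D.S1 * D.E := Nat.mul_le_mul_right _ h4

theorem pos2_lt (k r g c e : ℕ) (hk : k < D.K) (hr : r < D.X + D.Q) (hg : g < D.G)
    (hc : c < 2 * D.X) (he : e < D.E) : D.pos2 k r g c e < D.K * D.S2 * D.E := by
  have hm := pos_lt_R D g c hg hc
  have h1 : r * D.R + D.R ≤ (D.X + D.Q) * D.R := by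
    calc r * D.R + D.R = (r + 1) * D.R := by ring
      _ ≤ (D.X + D.Q) * D.R := Nat.mul_le_mul_right _ hr
  have h2 : k * D.S2 + D.S2 ≤ D.K * D.S2 := by
    calc k * D.S2 + D.S2 = (k + 1) * D.S2 := by ring
      _ ≤ D.K * D.S2 := Nat.mul_le_mul_right _ hk
  have h3 : D.S2 = D.Q * D.R + (D.X + D.Q) * D.R := rfl
  unfold Dim.pos2
  have h4 : k * D.S2 + r * D.R + g * (2 * D.X) + c + 1 ≤ D.K * D.S2 := by omega
  calc (k * D.S2 + r * D.R + g * (2 * D.X) + c) * D.E + e
      < (k * D.S2 + r * D.R + g * (2 * D.X) + c) * D.E + D.E := by omega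
    _ = (k * D.S2 + r * D.R + g * (2 * D.X) + c + 1) * D.E := by ring
    _ ≤ D.K * D.S2 * D.E := Nat.mul_le_mul_right _ h4

theorem spread_lt (R n : ℕ) (γ : ℕ → ℕ) (B : ℕ) (hB : 0 < B) (h : ∀ d, γ d < B) (i : ℕ) :
    spread R n γ i < B := by
  unfold spread
  split_ifs with h1
  · exact h _
  · exact hB

theorem spread_of_le (R n : ℕ) (hR : 0 < R) (γ : ℕ → ℕ) (i : ℕ) (h : n * R ≤ i) :
    spread R n γ i = 0 := by
  unfold spread
  rw [if_neg]
  rintro ⟨_, h2⟩
  have := (Nat.le_div_iff_mul_le hR).2 h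
  omega

include hD in
/-- the slots of a product with the kernel -/
theorem slot_prod (n N1 : ℕ) (F : ℕ → ℕ → ℕ) (hF : ∀ i e, F i e < D.p)
    (hF0 : ∀ i, N1 ≤ i → F i = 0) (hn1 : N1 * D.E * D.W ≤ n)
    (hn2 : (D.X + D.Q) * D.R * D.E * D.W ≤ n) (t : ℕ) (ht : t < N1 * D.E) :
    slotAt D.W (mulBits n (slots D.W (N1 * D.E) (flatE D.E F)) (kerBits D)) (1 + t) =
      bits D.W (conv (flatE D.E F) (spread (D.R * D.E) (D.X + D.Q) D.ker) t) := by
  have hR : 0 < D.R * D.E := Nat.mul_pos (R_pos D hD.hX hD.hG) hD.hE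
  have hE := hD.hE
  have hp := p_pos D hD
  have hpW := p_lt_W D hD
  set N := max (N1 * D.E) ((D.X + D.Q) * (D.R * D.E)) with hN
  have hN0 : 0 < N := lt_of_lt_of_le (by omega) (le_max_left _ _)
  have hNn : D.W * N ≤ n := by
    rcases max_choice (N1 * D.E) ((D.X + D.Q) * (D.R * D.E)) with h | h
    · rw [hN, h, mul_comm]; exact hn1
    · rw [hN, h, mul_comm, ← mul_assoc]; exact hn2
  rw [kerBits_eq D hD.hX hD.hG hD.hE, slotAt_mulBits D.W n N _ _ _ _ hN0 (le_max_left _ _)
    (le_max_right _ _) hNn]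
  · intro i hi
    unfold flatE
    rw [hF0 _ ((Nat.le_div_iff_mul_le (by omega)).2 hi)]
    rfl
  · exact fun i hi => spread_of_le _ _ hR _ _ hi
  · intro i
    exact lt_of_lt_of_le (hF _ _) hpW
  · intro i
    exact lt_of_lt_of_le (spread_lt _ _ _ _ hp (ker_lt D hD) i) hpW
  · intro c
    exact bound_conv D hD _ (fun i => hF _ _) _ c hR
  · have : N1 * D.E ≤ N := le_max_left _ _
    omega

include hD hV in
/-- **The slots of the first product.** -/
theorem slot_prod1 (n : ℕ) (hn1 : D.K * D.S1 * D.E * D.W ≤ n)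
    (hn2 : (D.X + D.Q) * D.R * D.E * D.W ≤ n)
    (k q g c e : ℕ) (hk : k < D.K) (hq : q < D.Q) (hg : g < D.G) (hc : c < 2 * D.X)
    (he : e < D.E) :
    slotAt D.W (mulBits n (packBits D V) (kerBits D)) (1 + D.pos1 k (D.X + q) g c e) =
      bits D.W (Z1 D (fun x y => val (V k x g y e)) q c) := by
  have hpos := pos1_lt D k (D.X + q) g c e hk (by omega) hg hc he
  rw [packBits_eq D V hD.hE hD.hL hV, slot_prod D hD n (D.K * D.S1) _ (dig1_lt D V hD hV)
    (fun i hi => dig1_of_le D _ i hi) hn1 hn2 _ hpos, conv1 D hD.hX hD.hG (vv V) k q g c e hk hq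
    hg hc he]
  rfl

include hD hV in
theorem Z1_lt (k q g c e : ℕ) (hk : k < D.K) (hq : q < D.Q) (hg : g < D.G) (hc : c < 2 * D.X)
    (he : e < D.E) : Z1 D (fun x y => val (V k x g y e)) q c < 2 ^ D.W := by
  have hR : 0 < D.R * D.E := Nat.mul_pos (R_pos D hD.hX hD.hG) hD.hE
  have := conv1 D hD.hX hD.hG (vv V) k q g c e hk hq hg hc he
  have h2 : Z1 D (fun x y => val (V k x g y e)) q c = Z1 D (fun x y => vv V k x g y e) q c := rfl
  rw [h2, ← this]
  exact bound_conv D hD _ (fun i => dig1_lt D V hD hV _ _) _ _ hR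

include hD hV in
theorem midBits_eq (n : ℕ) (hn1 : D.K * D.S1 * D.E * D.W ≤ n)
    (hn2 : (D.X + D.Q) * D.R * D.E * D.W ≤ n) :
    midBits D (mulBits n (packBits D V) (kerBits D)) =
      slots D.W (D.K * D.S2 * D.E) (flatE D.E (dig2 D (zz D V))) := by
  have h1 : midBits D (mulBits n (packBits D V) (kerBits D)) =
      (digits2 D (zz D V)).flatMap
        (fun f => (List.range D.E).flatMap fun e => bits D.W (f e)) := by
    unfold midBits digits2 block2
    simp only [List.flatMap_append, List.flatMap_assoc, List.flatMap_map, zeros_super]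
    apply List.flatMap_congr
    intro k hk
    congr 1
    apply List.flatMap_congr
    intro q hq
    apply List.flatMap_congr
    intro g hg
    apply List.flatMap_congr
    intro c hc
    apply List.flatMap_congr
    intro e he
    rw [List.mem_range] at hk hq hg hc he
    rw [slot_prod1 D V hD hV n hn1 hn2 k q g c e hk hq hg hc he,
      H778.val_bits_of_lt (Z1_lt D V hD hV k q g c e hk hq hg hc he)]
    rfl
  have := hD.hE
  rw [h1, flatMap_super D.W D.E (by omega), length_digits2]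
  rfl

include hD in
theorem slot_prod2 (n : ℕ) (hn2 : (D.X + D.Q) * D.R * D.E * D.W ≤ n)
    (hn3 : D.K * D.S2 * D.E * D.W ≤ n)
    (k y g c e : ℕ) (hk : k < D.K) (hy : y < D.X) (hg : g < D.G) (hc : c < 2 * D.X)
    (he : e < D.E) :
    slotAt D.W (mulBits n (slots D.W (D.K * D.S2 * D.E) (flatE D.E (dig2 D (zz D V))))
      (kerBits D)) (1 + D.pos2 k (D.Q + y) g c e) =
      bits D.W (Z3 D (fun x y => val (V k x g y e)) y c) := by
  have hpos := pos2_lt D k (D.Q + y) g c e hk (by omega) hg hc he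
  rw [slot_prod D hD n (D.K * D.S2) _ (dig2_lt D V hD) (fun i hi => dig2_of_le D _ i hi) hn3 hn2
    _ hpos, conv2 D hD.hX hD.hG (zz D V) k y g c e hk hy hg hc he]
  rfl

include hD hV in
theorem Z3_lt (k y g c e : ℕ) (hk : k < D.K) (hy : y < D.X) (hg : g < D.G) (hc : c < 2 * D.X)
    (he : e < D.E) : Z3 D (fun x y => val (V k x g y e)) y c < 2 ^ D.W := by
  have hR : 0 < D.R * D.E := Nat.mul_pos (R_pos D hD.hX hD.hG) hD.hE
  have := conv2 D hD.hX hD.hG (zz D V) k y g c e hk hy hg hc he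
  have h2 : Z3 D (fun x y => val (V k x g y e)) y c =
    ∑ q ∈ Finset.range D.Q, zz D V k q g c e * D.ker (D.Q + y - q) := rfl
  rw [h2, ← this]
  exact bound_conv D hD _ (fun i => dig2_lt D V hD _ _) _ _ hR

include hD hV in
/-- **One round exchanges the two index groups.** -/
theorem roundBits_eq (hN : NumOk D) (n : ℕ) (hn1 : D.K * D.S1 * D.E * D.W ≤ n)
    (hn2 : (D.X + D.Q) * D.R * D.E * D.W ≤ n) (hn3 : D.K * D.S2 * D.E * D.W ≤ n) :
    roundBits D n V = inputBits D (fun k x g y e => V k y g x e) := by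
  rw [roundBits, midBits_eq D V hD hV n hn1 hn2, postBits, inputBits]
  apply List.flatMap_congr
  intro k hk
  apply List.flatMap_congr
  intro y hy
  apply List.flatMap_congr
  intro g hg
  apply List.flatMap_congr
  intro x hx
  apply List.flatMap_congr
  intro e he
  rw [List.mem_range] at hk hy hg hx he
  rw [slot_prod2 D V hD n hn2 hn3 k y g (y + x) e hk hy hg (by omega) he,
    H778.val_bits_of_lt (Z3_lt D V hD hV k y g (y + x) e hk hy hg (by omega) he),
    hN.core _ (fun x y => by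
      have := H778.val_lt (V k x g y e)
      rw [hV] at this
      exact this) x y hx hy]
  have h7 := H778.bits_val (V k x g y e)
  rw [hV] at h7
  have hL := hD.hL
  obtain ⟨u, hu⟩ : ∃ u, D.W = u + D.L := ⟨D.W - D.L, by omega⟩
  rw [hu, H778.bits_add, List.drop_left' (by rw [H778.length_bits]; omega)]
  exact h7

end

end Vale.Agent.P338.R2.H525.Fp
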