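import Vale.Agent.P338.R2.H525.Fp.Round

/-!
P338, stage 2: one round on the stored matrix.
-/

namespace Vale.Agent.P338.R2.H525.Fp

open H778 (val bits slots)

theorem words_split (l h s h0 : ℕ) (h1 : h0 ≤ h - s) (M : ℕ → ℕ → Bool) (k x g y : ℕ) :
    H525.wordOf l h s M k x g y =
      (List.range (2 ^ (h - s - h0))).flatMap fun e => wordOf l h s h0 M k x g y e := by
  have e1 : 2 ^ (h - s) = 2 ^ (h - s - h0) * 2 ^ h0 := by
    rw [← pow_add]
    congr 1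
    omega
  have h2 : H525.wordOf l h s M k x g y = (List.range (2 ^ (h - s))).map fun c =>
      M (g % 2 ^ (l - h) * 2 ^ h + x * 2 ^ (h - s) + g / 2 ^ (l - h))
        (k * 2 ^ h + y * 2 ^ (h - s) + c) := rfl
  have h3 : (List.range (2 ^ (h - s))).map (fun c =>
      M (g % 2 ^ (l - h) * 2 ^ h + x * 2 ^ (h - s) + g / 2 ^ (l - h))
        (k * 2 ^ h + y * 2 ^ (h - s) + c)) =
      (List.range (2 ^ (h - s - h0) * 2 ^ h0)).map (fun c =>
      M (g % 2 ^ (l - h) * 2 ^ h + x * 2 ^ (h - s) + g / 2 ^ (l - h))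
        (k * 2 ^ h + y * 2 ^ (h - s) + c)) := by rw [← e1]
  rw [h2, h3, map_range_mul]
  apply List.flatMap_congr
  intro e _
  apply List.map_congr_left
  intro c _
  rw [add_assoc]
  congr 1
  ring

theorem length_wordOf (l h s h0 : ℕ) (M : ℕ → ℕ → Bool) (p w k x g y e : ℕ) :
    (wordOf l h s h0 M k x g y e).length = (dimOf l h s h0 p w).L := by
  simp [wordOf, dimOf]

theorem G_eq (l h s : ℕ) (hs : s ≤ h) (hl : h ≤ l) : 2 ^ (h - s) * 2 ^ (l - h) = 2 ^ (l - s) := by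
  rw [← pow_add]
  congr 1
  omega

theorem dBits_eq_input (l h s h0 p w : ℕ) (hs : s ≤ h) (hl : h ≤ l) (h1 : h0 ≤ h - s)
    (M : ℕ → ℕ → Bool) :
    dBits l h M = inputBits (dimOf l h s h0 p w) (wordOf l h s h0 M) := by
  rw [H525.dBits_eq_input l h s hs hl M]
  unfold H525.inputBits inputBits
  simp only [words_split l h s h0 h1]
  show (List.range (2 ^ (l - h))).flatMap _ = (List.range (2 ^ (l - h))).flatMap _
  apply List.flatMap_congr
  intro k _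
  show (List.range (2 ^ s)).flatMap _ = (List.range (2 ^ s)).flatMap _
  apply List.flatMap_congr
  intro x _
  show (List.range (2 ^ (h - s) * 2 ^ (l - h))).flatMap _ = (List.range (2 ^ (l - s))).flatMap _
  rw [G_eq l h s hs hl]
  rfl

theorem dBits_eq_swapped (l h s h0 p w : ℕ) (hs : s ≤ h) (hl : h ≤ l) (h1 : h0 ≤ h - s)
    (M : ℕ → ℕ → Bool) :
    dBits l (h - s) M = inputBits (dimOf l h s h0 p w)
      (fun k x g y e => wordOf l h s h0 M k y g x e) := by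
  rw [H525.dBits_eq_swapped l h s hs hl M]
  unfold H525.inputBits inputBits
  simp only [words_split l h s h0 h1]
  show (List.range (2 ^ (l - h))).flatMap _ = (List.range (2 ^ (l - h))).flatMap _
  apply List.flatMap_congr
  intro k _
  show (List.range (2 ^ s)).flatMap _ = (List.range (2 ^ s)).flatMap _
  apply List.flatMap_congr
  intro x _
  show (List.range (2 ^ (h - s) * 2 ^ (l - h))).flatMap _ = (List.range (2 ^ (l - s))).flatMap _
  rw [G_eq l h s hs hl]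
  rfl

/-- The sizes. -/
theorem sizes (D : Dim) (hX : 1 ≤ D.X) (hG : 1 ≤ D.G) (hK : 1 ≤ D.K) (hp : D.p ≤ 4 * D.X)
    (hp1 : 1 ≤ D.p) (hW : D.W ≤ 32 * D.L) :
    D.K * D.S1 * D.E * D.W ≤ 576 * (D.K * (D.X * (D.G * (D.X * (D.E * D.L))))) ∧
    (D.X + D.Q) * D.R * D.E * D.W ≤ 576 * (D.K * (D.X * (D.G * (D.X * (D.E * D.L))))) ∧
    D.K * D.S2 * D.E * D.W ≤ 576 * (D.K * (D.X * (D.G * (D.X * (D.E * D.L))))) := by
  have hR : D.R = 2 * D.X * D.G := rfl
  have hQ : D.Q + 1 ≤ 4 * D.X := by unfold Dim.Q; omega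
  have hRX : D.X ≤ D.R := by
    rw [hR]
    calc D.X ≤ 2 * D.X * 1 := by omega
      _ ≤ 2 * D.X * D.G := Nat.mul_le_mul_left _ hG
  have h0 : D.Q * D.R + D.R ≤ 4 * D.X * D.R := by
    calc D.Q * D.R + D.R = (D.Q + 1) * D.R := by ring
      _ ≤ 4 * D.X * D.R := Nat.mul_le_mul_right _ hQ
  have hXR : 4 * D.X * D.R = 4 * (D.X * D.R) := by ring
  have e1 : D.X * (D.R + 1) = D.X * D.R + D.X := by ring
  have e2 : (D.X + D.Q) * D.R = D.X * D.R + D.Q * D.R := by ring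
  have hS1 : D.S1 ≤ 9 * (D.X * D.R) := by
    unfold Dim.S1
    omega
  have hS2 : D.S2 ≤ 9 * (D.X * D.R) := by
    unfold Dim.S2
    omega
  have hS3 : (D.X + D.Q) * D.R ≤ 9 * (D.X * D.R) := by omega
  have key : 9 * (D.X * D.R) * D.E * D.W ≤ 576 * (D.X * (D.G * (D.X * (D.E * D.L)))) := by
    calc 9 * (D.X * D.R) * D.E * D.W ≤ 9 * (D.X * D.R) * D.E * (32 * D.L) :=
          Nat.mul_le_mul_left _ hW
      _ = 576 * (D.X * (D.G * (D.X * (D.E * D.L)))) := by rw [hR]; ring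
  refine ⟨?_, ?_, ?_⟩
  · calc D.K * D.S1 * D.E * D.W = D.K * (D.S1 * D.E * D.W) := by ring
      _ ≤ D.K * (9 * (D.X * D.R) * D.E * D.W) := by gcongr
      _ ≤ D.K * (576 * (D.X * (D.G * (D.X * (D.E * D.L))))) := Nat.mul_le_mul_left _ key
      _ = _ := by ring
  · calc (D.X + D.Q) * D.R * D.E * D.W ≤ 9 * (D.X * D.R) * D.E * D.W := by gcongr
      _ ≤ 576 * (D.X * (D.G * (D.X * (D.E * D.L)))) := key
      _ = 576 * (1 * (D.X * (D.G * (D.X * (D.E * D.L))))) := by ring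
      _ ≤ 576 * (D.K * (D.X * (D.G * (D.X * (D.E * D.L))))) := by gcongr
  · calc D.K * D.S2 * D.E * D.W = D.K * (D.S2 * D.E * D.W) := by ring
      _ ≤ D.K * (9 * (D.X * D.R) * D.E * D.W) := by gcongr
      _ ≤ D.K * (576 * (D.X * (D.G * (D.X * (D.E * D.L))))) := Nat.mul_le_mul_left _ key
      _ = _ := by ring

theorem dimOf_size (l h s h0 p w : ℕ) (hs : s ≤ h) (hl : h ≤ l) (h1 : h0 ≤ h - s) :
    (dimOf l h s h0 p w).K * ((dimOf l h s h0 p w).X * ((dimOf l h s h0 p w).G *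
      ((dimOf l h s h0 p w).X * ((dimOf l h s h0 p w).E * (dimOf l h s h0 p w).L)))) = 4 ^ l := by
  show 2 ^ (l - h) * (2 ^ s * (2 ^ (l - s) * (2 ^ s * (2 ^ (h - s - h0) * 2 ^ h0)))) = 4 ^ l
  rw [show (4 : ℕ) = 2 ^ 2 by norm_num, ← pow_mul]
  simp only [← pow_add]
  congr 1
  omega

/-- The parameters: chunks of `2 ^ hPar l` bits, exchange of `sPar l` index bits. -/
def hPar (l : ℕ) : ℕ := Nat.log 2 l - 4

/-- The number of index bits exchanged in one round. -/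
def sPar (l : ℕ) : ℕ := (l - hPar l) / 8

theorem par (l : ℕ) (hl : 32 ≤ l) : 2 ^ hPar l ≤ l ∧ 2 ^ hPar l ≤ sPar l + 1 ∧
    l < 32 * 2 ^ hPar l ∧ 5 * (sPar l + 2) ≤ l ∧ hPar l + 8 * sPar l ≤ l ∧
    l < hPar l + 8 * sPar l + 8 ∧ hPar l ≤ Nat.log 2 l := by
  have h1 : 5 ≤ Nat.log 2 l := Nat.le_log_of_pow_le (by norm_num) (by omega)
  have h2 : 2 ^ Nat.log 2 l ≤ l := Nat.pow_log_le_self 2 (by omega)
  have h3 : l < 2 ^ (Nat.log 2 l + 1) := Nat.lt_pow_succ_log_self (by norm_num) l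
  have h4 : 2 ^ Nat.log 2 l = 16 * 2 ^ hPar l := by
    unfold hPar
    rw [show (16 : ℕ) = 2 ^ 4 by norm_num, ← pow_add]
    congr 1
    omega
  have h5 : 2 ^ (Nat.log 2 l + 1) = 32 * 2 ^ hPar l := by
    rw [pow_succ, h4]
    ring
  have h6 : hPar l < 2 ^ hPar l := Nat.lt_two_pow_self
  have h7 : hPar l ≤ Nat.log 2 l := by unfold hPar; omega
  unfold sPar
  refine ⟨?_, ?_, ?_, ?_, ?_, ?_, h7⟩ <;> omega

theorem dimOf_ok (l h p w : ℕ) (hl32 : 32 ≤ l)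
    (hp : p.Prime) (hp1 : 2 * 2 ^ sPar l < p) (hp2 : p ≤ 4 * 2 ^ sPar l)
    (hw : orderOf (w : ZMod p) = p - 1) : (dimOf l h (sPar l) (hPar l) p w).Ok := by
  obtain ⟨g1, g2, g3, g4, g5, g6, g7⟩ := par l hl32
  refine ⟨Nat.one_le_two_pow, Nat.one_le_two_pow, Nat.one_le_two_pow, g1, ?_, hp1, hp, hw, ?_⟩
  · show 2 ^ 2 ^ hPar l ≤ p
    calc 2 ^ 2 ^ hPar l ≤ 2 ^ (sPar l + 1) := Nat.pow_le_pow_right (by norm_num) g2
      _ = 2 * 2 ^ sPar l := by rw [pow_succ]; ring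
      _ ≤ p := hp1.le
  · show p ^ 5 ≤ 2 ^ l
    calc p ^ 5 ≤ (2 ^ (sPar l + 2)) ^ 5 := by
          apply Nat.pow_le_pow_left
          calc p ≤ 4 * 2 ^ sPar l := hp2
            _ = 2 ^ (sPar l + 2) := by rw [pow_add]; ring
      _ = 2 ^ (5 * (sPar l + 2)) := by rw [← pow_mul]; congr 1; ring
      _ ≤ 2 ^ l := Nat.pow_le_pow_right (by norm_num) g4

/-- **One round on the stored matrix.** -/
theorem round_dBits (l h p w n : ℕ) (M : ℕ → ℕ → Bool) (hl32 : 32 ≤ l)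
    (h1 : hPar l + sPar l ≤ h) (hl : h ≤ l)
    (hp : p.Prime) (hp1 : 2 * 2 ^ sPar l < p) (hp2 : p ≤ 4 * 2 ^ sPar l)
    (hw : orderOf (w : ZMod p) = p - 1) (hn : 576 * 4 ^ l ≤ n)
    (hN : NumOk (dimOf l h (sPar l) (hPar l) p w)) :
    roundBits (dimOf l h (sPar l) (hPar l) p w) n (wordOf l h (sPar l) (hPar l) M) =
      dBits l (h - sPar l) M := by
  obtain ⟨g1, g2, g3, g4, g5, g6, g7⟩ := par l hl32
  have hok := dimOf_ok l h p w hl32 hp hp1 hp2 hw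
  obtain ⟨s1, s2, s3⟩ := sizes (dimOf l h (sPar l) (hPar l) p w) hok.hX hok.hG
    Nat.one_le_two_pow hp2 hp.pos g3.le
  rw [dimOf_size l h _ _ p w (by omega) hl (by omega)] at s1 s2 s3
  rw [roundBits_eq _ _ hok (fun k x g y e => length_wordOf l h _ _ M p w k x g y e) hN n
    (s1.trans hn) (s2.trans hn) (s3.trans hn),
    dBits_eq_swapped l h (sPar l) (hPar l) p w (by omega) hl (by omega)]

end Vale.Agent.P338.R2.H525.Fp
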