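import Vale.Agent.P338.R2.H525.Fp.InHyp
import Vale.Agent.P338.R2.H207.Fp.PostVal

/-!
P338, stage 2: one round on the stored matrix, slots of any width `W ≥ 32`.
-/

namespace Vale.Agent.P338.R2.H525.Fp

open H778 (val bits slots)

/-- The dimensions of a round with slots of width `W`: exchange of the index bits
`h - s, …, h - 1`, chunks of `2 ^ h0` bits. -/
def dimW (l W h s h0 p w : ℕ) : Dim :=
  ⟨2 ^ (l - h), 2 ^ s, 2 ^ (l - s), 2 ^ (h - s - h0), 2 ^ h0, W, p, w⟩

theorem dimW_self (l h s h0 p w : ℕ) : dimW l l h s h0 p w = dimOf l h s h0 p w := rfl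

theorem length_wordOfW (l W h s h0 : ℕ) (M : ℕ → ℕ → Bool) (p w k x g y e : ℕ) :
    (wordOf l h s h0 M k x g y e).length = (dimW l W h s h0 p w).L := by
  simp [wordOf, dimW]

theorem dBitsW_eq_input (l W h s h0 p w : ℕ) (hs : s ≤ h) (hl : h ≤ l) (h1 : h0 ≤ h - s)
    (M : ℕ → ℕ → Bool) :
    dBits l h M = inputBits (dimW l W h s h0 p w) (wordOf l h s h0 M) :=
  dBits_eq_input l h s h0 p w hs hl h1 M

theorem dBitsW_eq_swapped (l W h s h0 p w : ℕ) (hs : s ≤ h) (hl : h ≤ l) (h1 : h0 ≤ h - s)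
    (M : ℕ → ℕ → Bool) :
    dBits l (h - s) M = inputBits (dimW l W h s h0 p w)
      (fun k x g y e => wordOf l h s h0 M k y g x e) :=
  dBits_eq_swapped l h s h0 p w hs hl h1 M

theorem dimW_size (l W h s h0 p w : ℕ) (hs : s ≤ h) (hl : h ≤ l) (h1 : h0 ≤ h - s) :
    (dimW l W h s h0 p w).K * ((dimW l W h s h0 p w).X * ((dimW l W h s h0 p w).G *
      ((dimW l W h s h0 p w).X * ((dimW l W h s h0 p w).E * (dimW l W h s h0 p w).L)))) = 4 ^ l :=
  dimOf_size l h s h0 p w hs hl h1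

/-- The dimensions of the round at height `h` with slots of width `W`. -/
def dimR (l W h p w : ℕ) : Dim := dimW l W h (sPar W) (hPar W) p w

theorem dimR_ok (l W h p w : ℕ) (hW32 : 32 ≤ W)
    (hp : p.Prime) (hp1 : 2 * 2 ^ sPar W < p) (hp2 : p ≤ 4 * 2 ^ sPar W)
    (hw : orderOf (w : ZMod p) = p - 1) : (dimR l W h p w).Ok := by
  obtain ⟨g1, g2, g3, g4, g5, g6, g7⟩ := par W hW32
  refine ⟨Nat.one_le_two_pow, Nat.one_le_two_pow, Nat.one_le_two_pow, g1, ?_, hp1, hp, hw, ?_⟩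
  · show 2 ^ 2 ^ hPar W ≤ p
    calc 2 ^ 2 ^ hPar W ≤ 2 ^ (sPar W + 1) := Nat.pow_le_pow_right (by norm_num) g2
      _ = 2 * 2 ^ sPar W := by rw [pow_succ]; ring
      _ ≤ p := hp1.le
  · show p ^ 5 ≤ 2 ^ W
    calc p ^ 5 ≤ (2 ^ (sPar W + 2)) ^ 5 := by
          apply Nat.pow_le_pow_left
          calc p ≤ 4 * 2 ^ sPar W := hp2
            _ = 2 ^ (sPar W + 2) := by rw [pow_add]; ring
      _ = 2 ^ (5 * (sPar W + 2)) := by rw [← pow_mul]; congr 1; ring
      _ ≤ 2 ^ W := Nat.pow_le_pow_right (by norm_num) g4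

theorem dimR_sizes (l W h p w : ℕ) (hW32 : 32 ≤ W) (h1 : hPar W + sPar W ≤ h) (hl : h ≤ l)
    (hp1 : 1 ≤ p) (hp2 : p ≤ 4 * 2 ^ sPar W) (n : ℕ) (hn : 576 * 4 ^ l ≤ n) :
    (dimR l W h p w).K * (dimR l W h p w).S1 * (dimR l W h p w).E * (dimR l W h p w).W ≤ n ∧
    ((dimR l W h p w).X + (dimR l W h p w).Q) * (dimR l W h p w).R * (dimR l W h p w).E *
      (dimR l W h p w).W ≤ n ∧
    (dimR l W h p w).K * (dimR l W h p w).S2 * (dimR l W h p w).E * (dimR l W h p w).W ≤ n := by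
  obtain ⟨g1, g2, g3, g4, g5, g6, g7⟩ := par W hW32
  obtain ⟨s1, s2, s3⟩ := sizes (dimR l W h p w) Nat.one_le_two_pow
    Nat.one_le_two_pow Nat.one_le_two_pow hp2 hp1 g3.le
  rw [show (dimR l W h p w) = dimW l W h (sPar W) (hPar W) p w from rfl,
    dimW_size l W h _ _ p w (by omega) hl (by omega)] at s1 s2 s3
  exact ⟨s1.trans hn, s2.trans hn, s3.trans hn⟩

theorem dimR_word (l W h : ℕ) (M : ℕ → ℕ → Bool) (p w k x g y e : ℕ) :
    (wordOf l h (sPar W) (hPar W) M k x g y e).length = (dimR l W h p w).L :=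
  length_wordOfW l W h _ _ M p w k x g y e

/-- **One round on the stored matrix.** -/
theorem round_dimR (l W h p w n : ℕ) (M : ℕ → ℕ → Bool) (hW32 : 32 ≤ W)
    (h1 : hPar W + sPar W ≤ h) (hl : h ≤ l)
    (hp : p.Prime) (hp1 : 2 * 2 ^ sPar W < p) (hp2 : p ≤ 4 * 2 ^ sPar W)
    (hw : orderOf (w : ZMod p) = p - 1) (hn : 576 * 4 ^ l ≤ n) :
    roundBits (dimR l W h p w) n (wordOf l h (sPar W) (hPar W) M) =
      dBits l (h - sPar W) M := by
  have hok := dimR_ok l W h p w hW32 hp hp1 hp2 hw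
  obtain ⟨s1, s2, s3⟩ := dimR_sizes l W h p w hW32 h1 hl hp.pos hp2 n hn
  rw [roundBits_eq _ _ hok (fun k x g y e => dimR_word l W h M p w k x g y e) (numOk hok) n
    s1 s2 s3]
  exact (dBitsW_eq_swapped l W h (sPar W) (hPar W) p w (by omega) hl (by omega) M).symm

/-- The stored matrix is the input of the round. -/
theorem input_dimR (l W h p w : ℕ) (M : ℕ → ℕ → Bool) (h1 : hPar W + sPar W ≤ h)
    (hl : h ≤ l) : dBits l h M = inputBits (dimR l W h p w) (wordOf l h (sPar W) (hPar W) M) :=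
  dBitsW_eq_input l W h (sPar W) (hPar W) p w (by omega) hl (by omega) M

/-- The input of the middle pass. -/
theorem inM_dimR (l W h p w n : ℕ) (M : ℕ → ℕ → Bool) (hW32 : 32 ≤ W)
    (h1 : hPar W + sPar W ≤ h) (hl : h ≤ l) (hWn : W ≤ n)
    (hp : p.Prime) (hp1 : 2 * 2 ^ sPar W < p) (hp2 : p ≤ 4 * 2 ^ sPar W)
    (hw : orderOf (w : ZMod p) = p - 1) (hn : 576 * 4 ^ l ≤ n) :
    H207.Fp.InM (dimR l W h p w) (mulBits n (packBits (dimR l W h p w)
      (wordOf l h (sPar W) (hPar W) M)) (kerBits (dimR l W h p w))) := by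
  have hok := dimR_ok l W h p w hW32 hp hp1 hp2 hw
  obtain ⟨s1, s2, s3⟩ := dimR_sizes l W h p w hW32 h1 hl hp.pos hp2 n hn
  refine ⟨?_, ?_⟩
  · rw [len_mulBits, Nat.add_mul, Nat.one_mul]
    have : (dimR l W h p w).W = W := rfl
    omega
  · intro k hk q hq g hg c hc e he
    exact cube_ok hok (slot1_small _ _ hok (fun k x g y e => dimR_word l W h M p w k x g y e)
      n s1 s2 k q g c e hk hq hg hc he)

/-- The input of the final pass. -/
theorem inP_dimR (l W h p w n : ℕ) (M : ℕ → ℕ → Bool) (hW32 : 32 ≤ W)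
    (h1 : hPar W + sPar W ≤ h) (hl : h ≤ l) (hWn : W ≤ n)
    (hp : p.Prime) (hp1 : 2 * 2 ^ sPar W < p) (hp2 : p ≤ 4 * 2 ^ sPar W)
    (hw : orderOf (w : ZMod p) = p - 1) (hn : 576 * 4 ^ l ≤ n) :
    H207.Fp.InP (dimR l W h p w) (mulBits n (midBits (dimR l W h p w)
      (mulBits n (packBits (dimR l W h p w) (wordOf l h (sPar W) (hPar W) M))
        (kerBits (dimR l W h p w)))) (kerBits (dimR l W h p w))) := by
  have hok := dimR_ok l W h p w hW32 hp hp1 hp2 hw
  obtain ⟨s1, s2, s3⟩ := dimR_sizes l W h p w hW32 h1 hl hp.pos hp2 n hn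
  refine ⟨?_, ?_⟩
  · rw [len_mulBits, Nat.add_mul, Nat.one_mul]
    have : (dimR l W h p w).W = W := rfl
    omega
  · intro k hk y hy g hg x hx e he
    exact cube_ok hok (slot2_small _ _ hok (fun k x g y e => dimR_word l W h M p w k x g y e)
      n s1 s2 s3 k y g (y + x) e hk hy hg (by omega) he)

/-! Lengths. -/

theorem length_packBits (D : Dim) (V : ℕ → ℕ → ℕ → ℕ → ℕ → List Bool) (hE : 1 ≤ D.E)
    (hL : D.L ≤ D.W) (hV : ∀ k x g y e, (V k x g y e).length = D.L) :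
    (packBits D V).length = D.K * D.S1 * D.E * D.W := by
  rw [packBits_eq D V hE hL hV, H778.length_slots]
  ring

theorem length_kerBits (D : Dim) (hX : 1 ≤ D.X) (hG : 1 ≤ D.G) (hE : 1 ≤ D.E) :
    (kerBits D).length = (D.X + D.Q) * D.R * D.E * D.W := by
  rw [kerBits_eq D hX hG hE, H778.length_slots]
  ring

theorem length_midBits (D : Dim) (z : List Bool) :
    (midBits D z).length = D.K * D.S2 * D.E * D.W := by
  unfold midBits
  simp only [List.length_flatMap, List.length_append, H778.length_bits, List.map_const',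
    List.length_range, List.sum_replicate, smul_eq_mul, zeros, List.length_replicate]
  unfold Dim.S2 Dim.R
  ring

theorem length_postBits (D : Dim) (hL : D.L ≤ D.W) (z : List Bool) :
    (postBits D z).length = D.K * (D.X * (D.G * (D.X * (D.E * D.L)))) := by
  unfold postBits
  simp only [List.length_flatMap, List.length_drop, H778.length_bits, List.map_const',
    List.length_range, List.sum_replicate, smul_eq_mul]
  have : D.W - (D.W - D.L) = D.L := by omega
  rw [this]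

theorem length_inputBits (D : Dim) (V : ℕ → ℕ → ℕ → ℕ → ℕ → List Bool)
    (hV : ∀ k x g y e, (V k x g y e).length = D.L) :
    (inputBits D V).length = D.K * (D.X * (D.G * (D.X * (D.E * D.L)))) := by
  unfold inputBits
  simp only [List.length_flatMap, hV, List.map_const', List.length_range, List.sum_replicate,
    smul_eq_mul]

/-! Numbers of slots. -/

/-- The numbers of slots times the width. -/
theorem dimR_slots (l W h p w : ℕ) (hW32 : 32 ≤ W) (h1 : hPar W + sPar W ≤ h) (hl : h ≤ l)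
    (hp1 : 1 ≤ p) (hp2 : p ≤ 4 * 2 ^ sPar W) :
    (dimR l W h p w).K * (dimR l W h p w).S1 * (dimR l W h p w).E * W ≤ 576 * 4 ^ l ∧
    ((dimR l W h p w).X + (dimR l W h p w).Q) * (dimR l W h p w).R * (dimR l W h p w).E * W ≤
      576 * 4 ^ l ∧
    (dimR l W h p w).K * (dimR l W h p w).S2 * (dimR l W h p w).E * W ≤ 576 * 4 ^ l ∧
    (dimR l W h p w).K * ((dimR l W h p w).Q * ((dimR l W h p w).G * (2 * (dimR l W h p w).X *
      (dimR l W h p w).E))) * W ≤ 576 * 4 ^ l ∧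
    (dimR l W h p w).K * ((dimR l W h p w).X * ((dimR l W h p w).G * ((dimR l W h p w).X *
      (dimR l W h p w).E))) * W ≤ 32 * 4 ^ l := by
  obtain ⟨s1, s2, s3⟩ := dimR_sizes l W h p w hW32 h1 hl hp1 hp2 _ le_rfl
  obtain ⟨g1, g2, g3, g4, g5, g6, g7⟩ := par W hW32
  refine ⟨s1, s2, s3, ?_, ?_⟩
  · refine le_trans ?_ s3
    show _ * W ≤ _ * W
    apply Nat.mul_le_mul_right
    have e1 : (dimR l W h p w).K * ((dimR l W h p w).Q * ((dimR l W h p w).G *
        (2 * (dimR l W h p w).X * (dimR l W h p w).E))) =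
        (dimR l W h p w).K * ((dimR l W h p w).Q * (dimR l W h p w).R) * (dimR l W h p w).E := by
      unfold Dim.R
      ring
    rw [e1]
    apply Nat.mul_le_mul_right
    apply Nat.mul_le_mul_left
    unfold Dim.S2
    omega
  · have e2 := dimW_size l W h (sPar W) (hPar W) p w (by omega) hl (by omega)
    set A := (dimR l W h p w).K * ((dimR l W h p w).X * ((dimR l W h p w).G *
      ((dimR l W h p w).X * (dimR l W h p w).E))) with hA
    have e3 : A * 2 ^ hPar W = 4 ^ l := by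
      rw [← e2, hA]
      show 2 ^ (l - h) * (2 ^ sPar W * (2 ^ (l - sPar W) * (2 ^ sPar W *
        2 ^ (h - sPar W - hPar W)))) * 2 ^ hPar W = 2 ^ (l - h) * (2 ^ sPar W *
        (2 ^ (l - sPar W) * (2 ^ sPar W * (2 ^ (h - sPar W - hPar W) * 2 ^ hPar W))))
      ring
    calc A * W ≤ A * (32 * 2 ^ hPar W) := Nat.mul_le_mul_left _ g3.le
      _ = 32 * (A * 2 ^ hPar W) := by ring
      _ = 32 * 4 ^ l := by rw [e3]

end Vale.Agent.P338.R2.H525.Fp
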